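import Vale.Agent.P073Z.Ax.Small

/-!
# The PL Alexander theorem: books of planes
-/

open Set Metric Topology Filter

namespace P073.Ax

theorem plane_of (y : P) (u : E2) {w : E2} (hw : w ≠ 0) :
    PLMan 2 {q : P | ∃ a : ℝ, q.1 - y.1 - (q.2 - y.2) • u = a • w} := by
  let A : E2 →ᵃ[ℝ] P := ((LinearMap.proj 0 : E2 →ₗ[ℝ] ℝ).smulRight ((w, 0) : P) +
    (LinearMap.proj 1 : E2 →ₗ[ℝ] ℝ).smulRight ((u, 1) : P)).toAffineMap + AffineMap.const ℝ E2 y
  have hA : ∀ x, A x = (x 0 • w + x 1 • u + y.1, x 1 + y.2) := fun x => by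
    ext <;> simp [A]
  have h1 : range A = {q : P | ∃ a : ℝ, q.1 - y.1 - (q.2 - y.2) • u = a • w} := by
    ext q
    constructor
    · rintro ⟨x, rfl⟩
      refine ⟨x 0, ?_⟩
      rw [hA]
      simp only [add_sub_cancel_right]
    · rintro ⟨a, ha⟩
      refine ⟨![a, q.2 - y.2], ?_⟩
      rw [hA]
      refine Prod.ext ?_ ?_
      · show a • w + (q.2 - y.2) • u + y.1 = q.1
        rw [← ha]
        abel
      · show q.2 - y.2 + y.2 = q.2
        abel
  rw [← h1]
  refine plane A fun x x' e => ?_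
  rw [hA, hA] at e
  have e1 : x 1 = x' 1 := add_right_cancel (congrArg Prod.snd e)
  have e2 : x 0 • w + x 1 • u + y.1 = x' 0 • w + x' 1 • u + y.1 := congrArg Prod.fst e
  rw [e1] at e2
  have e3 : x 0 = x' 0 := smul_left_injective ℝ hw (add_right_cancel (add_right_cancel e2))
  funext i
  fin_cases i
  · exact e3
  · exact e1

theorem span_of_ker {l : E2 →ₗ[ℝ] ℝ} (hl : l ≠ 0) {w w' : E2} (hw : w ≠ 0) (h : l w = 0)
    (h' : l w' = 0) : ∃ a : ℝ, w' = a • w := by
  have h1 := Module.Dual.finrank_ker_add_one_of_ne_zero hl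
  rw [Module.finrank_fin_fun] at h1
  obtain ⟨a, ha⟩ := (finrank_eq_one_iff_of_nonzero' (K := ℝ) (⟨w, h⟩ : LinearMap.ker l)
    fun e => hw (congrArg Subtype.val e)).1 (by omega) ⟨w', h'⟩
  exact ⟨a, (congrArg Subtype.val ha).symm⟩

theorem book : BOOK := by
  rintro M σ y hc hM ⟨u, Lam, hLam, hev⟩
  obtain ⟨r, hr, hb⟩ := Metric.eventually_nhds_iff_ball.1 hev
  let w : P → E2 := fun z => z.1 - y.1 - (z.2 - y.2) • u
  have hwc : Continuous w := by fun_prop
  have hwi : ∀ (z : P) (t : ℝ), w (z + t • ((u, 1) : P)) = w z := fun z t => by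
    show z.1 + t • u - y.1 - (z.2 + t * 1 - y.2) • u = z.1 - y.1 - (z.2 - y.2) • u
    module
  let W : Set P := ball y r ∩ {z | 0 < σ * (z.2 - y.2)}
  have hW : IsOpen W := isOpen_ball.inter (isOpen_lt continuous_const (by fun_prop))
  have hWc : Convex ℝ W := by
    refine (convex_ball y r).inter ?_
    intro p hp q hq a b ha hb hab
    show 0 < σ * (a * p.2 + b * q.2 - y.2)
    have e : σ * (a * p.2 + b * q.2 - y.2) = a * (σ * (p.2 - y.2)) + b * (σ * (q.2 - y.2)) := by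
      linear_combination (σ * y.2) * hab
    rw [e]
    have hp' : 0 < σ * (p.2 - y.2) := hp
    have hq' : 0 < σ * (q.2 - y.2) := hq
    rcases ha.eq_or_lt with h | h
    · rw [← h, zero_add] at hab
      rw [← h, hab]
      linarith
    · exact add_pos_of_pos_of_nonneg (mul_pos h hp') (mul_nonneg hb hq'.le)
  -- near a point off the spine
  have h1 : ∀ p ∈ M, p ∈ W → w p ≠ 0 → ∀ᶠ q in 𝓝 p, w q = w p → q ∈ M := by
    intro p hp hpW hp0
    have h2 : ∀ᶠ q in 𝓝 p, ∀ l ∈ Lam, l (w p) ≠ 0 → l (w q) ≠ 0 :=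
      (eventually_all_finset Lam).2 fun l _ => by
        by_cases h : l (w p) = 0
        · exact Eventually.of_forall fun _ h' => absurd h h'
        · exact ((l.continuous_of_finiteDimensional.comp hwc).continuousAt.eventually_ne h).mono
            fun _ h' _ => h'
    have h3 := flatopen hM (plane_of y u hp0) hp (by
      filter_upwards [h2, hW.mem_nhds hpW] with q a1 a2 a3
      obtain ⟨l, hl, h4⟩ := hb q a2.1 a3 a2.2
      exact span_of_ker (hLam l hl) hp0 (by_contra fun h => a1 l hl h h4) h4)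
    exact h3.mono fun q hq e => hq ⟨1, e.trans (one_smul _ _).symm⟩
  have h2 : ∀ p ∈ M, p ∈ W → w p ≠ 0 → ∀ s : ℝ, p + s • ((u, 1) : P) ∈ W →
      p + s • ((u, 1) : P) ∈ M := by
    intro p hp hpW hp0 s hs
    let γ : ℝ → P := fun t => p + (t * s) • ((u, 1) : P)
    have hγ : Continuous γ := by fun_prop
    have h3 : Icc (0:ℝ) 1 ⊆ γ ⁻¹' M := by
      refine sub_of_clopen isPreconnected_Icc (hc.preimage hγ)
        ⟨0, left_mem_Icc.2 zero_le_one, by
          simpa only [γ, mem_preimage, zero_mul, zero_smul, add_zero]⟩ fun t ht htM => ?_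
      have h4 : γ t ∈ W := by
        have := hWc.add_smul_mem hpW hs ht
        rwa [smul_smul] at this
      have h5 := h1 _ htM h4 (by rw [hwi]; exact hp0)
      exact (hγ.continuousAt.eventually h5).mono fun t' h6 _ => h6 (by rw [hwi, hwi])
    have h7 := h3 (right_mem_Icc.2 zero_le_one)
    simpa [γ] using h7
  refine ⟨r, hr, u, fun z hz s hs a1 a2 hzM => ?_⟩
  have hzW : z ∈ W := ⟨hz, a1⟩
  have hsW : z + s • ((u, 1) : P) ∈ W := ⟨hs, by
    show 0 < σ * (z.2 + s * 1 - y.2)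
    rwa [mul_one]⟩
  by_cases h0 : w z = 0
  swap
  · exact h2 z hzM hzW h0 s hsW
  have h3 : ∃ᶠ p in 𝓝 z, p ∈ M ∧ w p ≠ 0 := by
    intro h4
    have hw₀ : (1 : E2) ≠ 0 := one_ne_zero
    have h5 := flatopen hM (plane_of y u hw₀) hzM (h4.mono fun q hq hqM =>
      ⟨0, (by_contra fun h => hq ⟨hqM, h⟩ : w q = 0).trans (zero_smul _ _).symm⟩)
    have h6 : Tendsto (fun a : ℝ => z + a • ((1, 0) : P)) (𝓝[≠] 0) (𝓝 z) :=
      ((by fun_prop : Continuous fun a : ℝ => z + a • ((1, 0) : P)).tendsto' 0 z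
        (by simp)).mono_left nhdsWithin_le_nhds
    obtain ⟨a, ⟨b1, b2⟩, b3⟩ := ((h6.eventually (h5.and h4)).and self_mem_nhdsWithin).exists
    have e : w (z + a • ((1, 0) : P)) = a • (1 : E2) := by
      have e1 : w (z + a • ((1, 0) : P)) = w z + a • (1 : E2) := by
        show z.1 + a • (1 : E2) - y.1 - (z.2 + a * 0 - y.2) • u =
          z.1 - y.1 - (z.2 - y.2) • u + a • (1 : E2)
        module
      rw [e1, h0, zero_add]
    exact b2 ⟨b1 ⟨a, e⟩, by rw [e]; exact smul_ne_zero b3 hw₀⟩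
  have h4 : Continuous fun p : P => p + s • ((u, 1) : P) := by fun_prop
  refine hc.mem_of_frequently_of_tendsto (f := fun p : P => p + s • ((u, 1) : P)) ?_
    (h4.tendsto z)
  exact (h3.and_eventually ((hW.eventually_mem hzW).and
    (h4.continuousAt.eventually (hW.mem_nhds hsW)))).mono fun p hp =>
      h2 p hp.1.1 hp.2.1 hp.1.2 s hp.2.2

end P073.Ax
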