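import Vale.Agent.P073Z.Ax.Sk
import Vale.Agent.P073Z.A2.PL

/-!
# The PL Alexander theorem: thin boxes around the vertices
-/

open Set Metric Topology Filter

namespace P073.Ax

open A2

/-- the coordinates -/
noncomputable def fc : Fin 3 → P →L[ℝ] ℝ :=
  ![(ContinuousLinearMap.proj (R := ℝ) (φ := fun _ : Fin 2 => ℝ) 0).comp
      (ContinuousLinearMap.fst ℝ E2 ℝ),
    (ContinuousLinearMap.proj (R := ℝ) (φ := fun _ : Fin 2 => ℝ) 1).comp
      (ContinuousLinearMap.fst ℝ E2 ℝ), ContinuousLinearMap.snd ℝ E2 ℝ]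

theorem fc0 (z : P) : fc 0 z = z.1 0 := rfl
theorem fc1 (z : P) : fc 1 z = z.1 1 := rfl
theorem fc2 (z : P) : fc 2 z = z.2 := rfl

/-- the box with centre `v` -/
def box (ρ : Fin 3 → ℝ) (v : P) : Set P := ⋂ i, {z | |fc i (z - v)| ≤ ρ i}

section

variable {ρ : Fin 3 → ℝ} {r σ : ℝ} {v y : P} {X : Set P}

theorem box_pl (i : Fin 3) (v : P) : PLOn (fun z => |fc i (z - v)|) univ :=
  pl_abs (pl_comp_univ (pl_clm (fc i) conicalSet_univ)
    (pl_sub (pl_id conicalSet_univ) (pl_const v conicalSet_univ)))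

theorem box_cont (i : Fin 3) (v : P) : Continuous fun z => |fc i (z - v)| :=
  continuousOn_univ.1 (box_pl i v).1

theorem box_closed : IsClosed (box ρ v) :=
  isClosed_iInter fun i => isClosed_le (box_cont i v) continuous_const

theorem box_locCone : LocCone (box ρ v) :=
  LocCone.iInter_finite fun i => locCone_setOf_le (box_cont i v) (box_pl i v).2 _

theorem box_convex : Convex ℝ (box ρ v) := convex_iInter fun i z hz z' hz' a b ha hb hab => by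
  have e : a • z + b • z' - v = a • (z - v) + b • (z' - v) := by
    rw [smul_sub, smul_sub, sub_add_sub_comm, ← add_smul, hab, one_smul]
  rw [mem_ofPred_eq, e, map_add, map_smul, map_smul, smul_eq_mul, smul_eq_mul]
  refine (abs_add_le _ _).trans ?_
  rw [abs_mul, abs_mul, abs_of_nonneg ha, abs_of_nonneg hb, ← one_mul (ρ i), ← hab, add_mul]
  exact add_le_add (mul_le_mul_of_nonneg_left hz ha) (mul_le_mul_of_nonneg_left hz' hb)

theorem box_norm (h : ∀ i, ρ i ≤ r) {z : P} (hz : z ∈ box ρ v) : ‖z - v‖ ≤ r := by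
  have h1 := fun i => (mem_iInter.1 hz i : |fc i (z - v)| ≤ ρ i).trans (h i)
  rw [Prod.norm_def, max_le_iff, pi_norm_le_iff_of_nonempty, Fin.forall_fin_two]
  exact ⟨⟨h1 0, h1 1⟩, h1 2⟩

theorem box_nhds (h : ∀ i, |fc i (y - v)| < ρ i) : box ρ v ∈ 𝓝 y :=
  iInter_mem.2 fun i => ((box_cont i v).continuousAt.eventually_lt continuousAt_const (h i)).mono
    fun _ hz => hz.le

theorem box_frontier (h : ∀ i, 0 < ρ i) (v y : P) : ∀ᶠ z in 𝓝 y, z ∈ frontier (box ρ v) →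
    ∃ i, |fc i (y - v)| = ρ i ∧ fc i (z - y) = 0 := by
  have h1 : ∀ i, ∀ᶠ z in 𝓝 y, |fc i (z - v)| = ρ i → |fc i (y - v)| = ρ i ∧ fc i (z - y) = 0 := by
    intro i
    by_cases e : |fc i (y - v)| = ρ i
    · have h2 : Continuous fun z => |fc i (z - y)| := box_cont i y
      filter_upwards [h2.continuousAt.eventually_lt continuousAt_const
        (show |fc i (y - y)| < ρ i by simpa using h i)] with z hz e'
      refine ⟨e, ?_⟩
      have e2 : fc i (z - v) = fc i (z - y) + fc i (y - v) := by rw [← map_add, sub_add_sub_cancel]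
      have := h i
      rw [abs_lt] at hz
      rw [e2, abs_eq this.le] at e'
      rw [abs_eq this.le] at e
      rcases e with e | e <;> rcases e' with e' | e' <;> linarith [hz.1, hz.2]
    · filter_upwards [(box_cont i v).continuousAt.eventually_ne e] with z hz e'
      exact absurd e' hz
  filter_upwards [eventually_all.2 h1] with z hz hf
  by_contra hn
  refine hf.2 (mem_interior_iff_mem_nhds.2 (box_nhds fun i => lt_of_le_of_ne ?_ fun e => ?_))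
  · exact mem_iInter.1 (box_closed.frontier_subset hf) i
  · exact hn ⟨i, hz i e⟩

theorem lin_eq (l : P →ₗ[ℝ] ℝ) (w : P) : l w =
    w.1 0 * l (Pi.single 0 1, 0) + w.1 1 * l (Pi.single 1 1, 0) + w.2 * l (0, 1) := by
  have : w = w.1 0 • ((Pi.single 0 1, 0) : P) + w.1 1 • ((Pi.single 1 1, 0) : P) +
      w.2 • ((0, 1) : P) := by
    refine Prod.ext (funext fun i => ?_) (by simp)
    fin_cases i <;> simp
  conv_lhs => rw [this, map_add, map_add, map_smul, map_smul, map_smul]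
  rfl

theorem book_of (U : P) (hU : U.2 ≠ 0) (Λ : Finset (P →ₗ[ℝ] ℝ)) (h : ∀ᶠ z in 𝓝 y, z ∈ X →
    0 < σ * (z.2 - y.2) → ∃ l ∈ Λ, l ≠ 0 ∧ l U = 0 ∧ l (z - y) = 0) : Book σ X y := by
  classical
  have key : ∀ (l : P →ₗ[ℝ] ℝ) (w : P), l U = 0 → l (w.1 - w.2 • U.2⁻¹ • U.1, 0) = l w := by
    intro l w hl
    have : ((w.1 - w.2 • U.2⁻¹ • U.1, 0) : P) = w - (w.2 * U.2⁻¹) • U :=
      Prod.ext (by simp [smul_smul]) (by simp [hU])
    rw [this, map_sub, map_smul, hl, smul_zero, sub_zero]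
  refine ⟨U.2⁻¹ • U.1, (Λ.filter fun l => l ≠ 0 ∧ l U = 0).image
    fun l => l.comp (LinearMap.inl ℝ E2 ℝ), fun l' hl' => ?_, h.mono fun z hz h1 h2 => ?_⟩
  · obtain ⟨l, hl, rfl⟩ := Finset.mem_image.1 hl'
    obtain ⟨-, h1, h2⟩ := Finset.mem_filter.1 hl
    exact fun e => h1 (LinearMap.ext fun w => (key l w h2).symm.trans (LinearMap.congr_fun e _))
  · obtain ⟨l, h3, h4, h5, h6⟩ := hz h1 h2
    exact ⟨_, Finset.mem_image_of_mem _ (Finset.mem_filter.2 ⟨h3, h4, h5⟩),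
      (key l (z - y) h5).trans h6⟩

theorem book_off {S : Set P} {V Dir : Finset P} {Lam : Finset (P →ₗ[ℝ] ℝ)} (hS : IsClosed S)
    (H : Strat S V Dir Lam) (hd : ∀ d ∈ Dir, d.2 ≠ 0) (hy : y ∉ V)
    (h : ∀ᶠ z in 𝓝 y, z ∈ X → 0 < σ * (z.2 - y.2) → z ∈ S) : Book σ X y := by
  by_cases e : y ∈ S
  · obtain ⟨d, h1, h2⟩ := H.off y e hy
    refine book_of d (hd d h1) Lam ?_
    filter_upwards [h, h2] with z a1 a2 a3 a4
    obtain ⟨l, b1, b2⟩ := a2 (a1 a3 a4)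
    exact ⟨l, b1, (H.lam l b1).1, b2⟩
  · refine book_of (0, 1) one_ne_zero ∅ ?_
    filter_upwards [h, hS.isOpen_compl.mem_nhds e] with z a1 a2 a3 a4
    exact absurd (a1 a3 a4) a2

end

theorem exists_shape {Dir : Finset P} {Lam : Finset (P →ₗ[ℝ] ℝ)}
    (hl : ∀ l ∈ Lam, l ≠ 0 ∧ ∃ d ∈ Dir, l d = 0) (hd : ∀ d ∈ Dir, d.2 ≠ 0) :
    ∃ κ ∈ Ioo (0:ℝ) 1, ∃ η ∈ Ioo (0:ℝ) 1, (∀ d ∈ Dir, η * |d.1 0| < |d.2| ∧ η * |d.1 1| < κ * |d.2|) ∧
      ∀ l ∈ Lam, η * |l (0, 1)| < |(|l (Pi.single 0 1, 0)| - κ * |l (Pi.single 1 1, 0)|)| := by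
  obtain ⟨κ, h1, h2⟩ := (Ioo_infinite (zero_lt_one' ℝ)).exists_notMem_finset
    (Lam.image fun l => |l (Pi.single 0 1, 0)| / |l (Pi.single 1 1, 0)|)
  have h3 : ∀ c m : ℝ, 0 < m → ∀ᶠ η in 𝓝[>] (0:ℝ), η * c < m := fun c m hm =>
    ((continuous_id.mul continuous_const).continuousAt.eventually_lt continuousAt_const
      (by simpa using hm)).filter_mono nhdsWithin_le_nhds
  have h4 : ∀ l ∈ Lam, 0 < |(|l (Pi.single 0 1, 0)| - κ * |l (Pi.single 1 1, 0)|)| := by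
    intro l hl'
    refine abs_pos.2 (sub_ne_zero.2 fun e => ?_)
    by_cases e1 : l (Pi.single 1 1, 0) = 0
    · obtain ⟨a1, d, a2, a3⟩ := hl l hl'
      rw [e1, abs_zero, mul_zero, abs_eq_zero] at e
      rw [lin_eq, e, e1, mul_zero, mul_zero, zero_add, zero_add, mul_eq_zero] at a3
      refine a1 (LinearMap.ext fun w => ?_)
      rw [lin_eq, e, e1, a3.resolve_left (hd d a2)]
      simp
    · exact h2 (Finset.mem_image.2 ⟨l, hl', by rw [e, mul_div_cancel_right₀ _ (abs_ne_zero.2 e1)]⟩)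
  obtain ⟨η, ⟨a1, a2⟩, a3⟩ := ((((Finset.eventually_all Dir).2 fun d hd' =>
    (h3 |d.1 0| _ (abs_pos.2 (hd d hd'))).and (h3 |d.1 1| _ (mul_pos h1.1 (abs_pos.2 (hd d hd'))))).and
    ((Finset.eventually_all Lam).2 fun l hl' => h3 |l (0, 1)| _ (h4 l hl'))).and
    (Ioo_mem_nhdsGT (zero_lt_one' ℝ))).exists
  exact ⟨κ, h1, η, a3, a1, a2⟩

theorem planes : PLANES := by
  intro S V Dir Lam hS hL H hd
  classical
  obtain ⟨κ, hκ, η, hη, s1, s2⟩ := exists_shape H.lam hd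
  have h1 : ∀ᶠ r in 𝓝[>] (0:ℝ), ∀ v ∈ V, (∀ w : P, ‖w‖ ≤ r → ∀ t ∈ Ioc (0:ℝ) 1,
      (v + t • w ∈ S ↔ v + w ∈ S)) ∧ (∀ y, ‖y - v‖ ≤ r → y ∈ S →
        (∃ d ∈ Dir, ∃ t : ℝ, y - v = t • d) ∨
          ∃ l ∈ Lam, l (y - v) = 0 ∧ ∀ᶠ z in 𝓝 y, z ∈ S → l (z - y) = 0) ∧
      ∀ w ∈ V, v ≠ w → 2 * r < ‖v - w‖ := by
    refine (Finset.eventually_all V).2 fun v hv => Eventually.and ?_ (Eventually.and ?_
      ((Finset.eventually_all V).2 fun w _ => eventually_imp_distrib_left.2 fun e => ?_))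
    · obtain ⟨r, hr, h⟩ := hL v
      filter_upwards [Ioo_mem_nhdsGT hr] with r' hr' w hw using h w (hw.trans hr'.2.le)
    · obtain ⟨r, hr, h⟩ := Metric.nhds_basis_closedBall.eventually_iff.1 (H.near v hv)
      filter_upwards [Ioo_mem_nhdsGT hr] with r' hr' y hy
      exact h (mem_closedBall_iff_norm.2 (hy.trans hr'.2.le))
    · filter_upwards [Ioo_mem_nhdsGT (half_pos (norm_pos_iff.2 (sub_ne_zero.2 e)))] with r hr
      linarith [hr.2]
  obtain ⟨r, h2, hr⟩ := (h1.and self_mem_nhdsWithin).exists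
  replace hr : 0 < r := hr
  obtain ⟨ρ, ρ0, ρ1, ρ2⟩ : ∃ ρ : Fin 3 → ℝ, ρ 0 = r ∧ ρ 1 = κ * r ∧ ρ 2 = η * r :=
    ⟨![r, κ * r, η * r], rfl, rfl, rfl⟩
  have ρp : ∀ i, 0 < ρ i := Fin.forall_fin_succ.2 ⟨ρ0 ▸ hr, Fin.forall_fin_two.2
    ⟨ρ1.ge.trans_lt' (mul_pos hκ.1 hr), ρ2.ge.trans_lt' (mul_pos hη.1 hr)⟩⟩
  have ρr : ∀ i, ρ i ≤ r := Fin.forall_fin_succ.2 ⟨ρ0.le, Fin.forall_fin_two.2
    ⟨ρ1.le.trans (mul_le_of_le_one_left hr.le hκ.2.le),
      ρ2.le.trans (mul_le_of_le_one_left hr.le hη.2.le)⟩⟩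
  have hv0 : ∀ v, box ρ v ∈ 𝓝 v := fun v => box_nhds fun i => by simpa using ρp i
  have hdj : ∀ v ∈ V, ∀ w ∈ V, v ≠ w → Disjoint (box ρ v) (box ρ w) := fun v hv w hw e =>
    disjoint_left.2 fun z h3 h4 => by
      have := norm_sub_le (z - w) (z - v)
      rw [sub_sub_sub_cancel_left] at this
      linarith [(h2 v hv).2.2 w hw e, box_norm ρr h3, box_norm ρr h4]
  refine ⟨box ρ, fun v hv => ⟨H.vert v hv, (isCompact_closedBall v r).of_isClosed_subset box_closed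
    fun z hz => mem_closedBall_iff_norm.2 (box_norm ρr hz), box_convex, box_locCone, hv0 v,
    fun z hz t ht => ?_⟩, hdj, fun σ y => ?_⟩
  · rw [(h2 v hv).1 _ (box_norm ρr hz) t ht, add_sub_cancel]
  have hfar : ∀ᶠ z in 𝓝 y, ∀ w ∈ V, z ∈ frontier (box ρ w) → y ∈ box ρ w :=
    (Finset.eventually_all V).2 fun w _ => by
      by_cases e : y ∈ box ρ w
      · exact Eventually.of_forall fun _ _ => e
      · filter_upwards [box_closed.isOpen_compl.mem_nhds e] with z hz hz'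
        exact absurd (box_closed.frontier_subset hz') hz
  by_cases hy : ∃ v ∈ V, y ∈ box ρ v
  swap
  · refine book_off hS.isClosed H hd (fun e => hy ⟨y, e, mem_of_mem_nhds (hv0 y)⟩) ?_
    filter_upwards [hfar] with z hz hX _
    rcases hX with hX | hX
    · exact hX.1
    · obtain ⟨w, hw, hX⟩ := mem_iUnion₂.1 hX
      exact absurd ⟨w, hw, hz w hw hX⟩ hy
  obtain ⟨v, hv, hy⟩ := hy
  have hX : ∀ᶠ z in 𝓝 y, z ∈ (S \ ⋃ v ∈ V, box ρ v) ∪ ⋃ v ∈ V, frontier (box ρ v) →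
      0 < σ * (z.2 - y.2) → (z ∈ S ∧ z ∉ box ρ v) ∨ (|(y - v).1 0| = r ∧ fc 0 (z - y) = 0) ∨
        |(y - v).1 1| = κ * r ∧ fc 1 (z - y) = 0 := by
    filter_upwards [hfar, box_frontier ρp v y] with z a1 a2 hX a3
    rcases hX with hX | hX
    · exact Or.inl ⟨hX.1, fun e => hX.2 (mem_iUnion₂.2 ⟨v, hv, e⟩)⟩
    obtain ⟨w, hw, hX⟩ := mem_iUnion₂.1 hX
    obtain rfl : v = w := by_contra fun e => disjoint_left.1 (hdj v hv w hw e) hy (a1 w hw hX)
    obtain ⟨i, b1, b2⟩ := a2 hX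
    fin_cases i
    · exact Or.inr (Or.inl ⟨b1.trans ρ0, b2⟩)
    · exact Or.inr (Or.inr ⟨b1.trans ρ1, b2⟩)
    · rw [show z.2 - y.2 = 0 from b2, mul_zero] at a3
      exact absurd a3 (lt_irrefl _)
  have f0 : (fc 0 : P →ₗ[ℝ] ℝ) ≠ 0 := fun e => by
    simpa [fc0] using LinearMap.congr_fun e (Pi.single 0 1, 0)
  have f1 : (fc 1 : P →ₗ[ℝ] ℝ) ≠ 0 := fun e => by
    simpa [fc1] using LinearMap.congr_fun e (Pi.single 1 1, 0)
  by_cases hs : |(y - v).1 0| = r ∨ |(y - v).1 1| = κ * r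
  swap
  · rw [not_or] at hs
    by_cases e : y = v
    · refine book_of (0, 1) one_ne_zero ∅ ?_
      filter_upwards [hX, show box ρ v ∈ 𝓝 y from e ▸ hv0 y] with z a1 a2 a3 a4
      rcases a1 a3 a4 with b | b | b
      exacts [absurd a2 b.2, absurd b.1 hs.1, absurd b.1 hs.2]
    · refine book_off hS.isClosed H hd (fun e' => disjoint_left.1 (hdj y e' v hv e)
        (mem_of_mem_nhds (hv0 y)) hy) ?_
      filter_upwards [hX] with z a1 a3 a4
      rcases a1 a3 a4 with b | b | b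
      exacts [b.1, absurd b.1 hs.1, absurd b.1 hs.2]
  by_cases hyS : y ∈ S
  swap
  · refine book_of (0, 1) one_ne_zero {(fc 0 : P →ₗ[ℝ] ℝ), (fc 1 : P →ₗ[ℝ] ℝ)} ?_
    filter_upwards [hX, hS.isClosed.isOpen_compl.mem_nhds hyS] with z a1 a2 a3 a4
    rcases a1 a3 a4 with b | b | b
    · exact absurd b.1 a2
    · exact ⟨_, Finset.mem_insert_self _ _, f0, rfl, b.2⟩
    · exact ⟨_, Finset.mem_insert_of_mem (Finset.mem_singleton_self _), f1, rfl, b.2⟩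
  have y2 : |(y - v).2| ≤ η * r := (mem_iInter.1 hy 2 : |fc 2 (y - v)| ≤ ρ 2).trans ρ2.le
  rcases (h2 v hv).2.1 y (box_norm ρr hy) hyS with ⟨d, a1, t, a2⟩ | ⟨l, a1, a2, a3⟩
  · exfalso
    obtain ⟨b1, b2⟩ := s1 d a1
    rw [a2] at hs y2
    simp only [Prod.smul_fst, Prod.smul_snd, Pi.smul_apply, smul_eq_mul, abs_mul] at hs y2
    have b3 : 0 < |t| := abs_pos.2 fun e => by
      rw [e, abs_zero, zero_mul, zero_mul] at hs
      exact hs.elim hr.ne (mul_pos hκ.1 hr).ne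
    have b4 := mul_lt_mul_of_pos_left b1 b3
    have b5 := mul_lt_mul_of_pos_left b2 b3
    have b6 := mul_le_mul_of_nonneg_left y2 hκ.1.le
    rcases hs with hs | hs
    · rw [mul_left_comm, hs] at b4
      linarith
    · rw [mul_left_comm, hs] at b5
      linarith
  have s3 := mul_lt_mul_of_pos_left (s2 l a1) hr
  rw [lin_eq] at a2
  obtain ⟨a, ha⟩ : ∃ a, l (Pi.single 0 1, 0) = a := ⟨_, rfl⟩
  obtain ⟨b, hb⟩ : ∃ b, l (Pi.single 1 1, 0) = b := ⟨_, rfl⟩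
  obtain ⟨c, hc⟩ : ∃ c, l (0, 1) = c := ⟨_, rfl⟩
  rw [ha, hb, hc] at a2 s3
  have s4 : |(y - v).1 0 * a + (y - v).1 1 * b| < |(r * |a| - κ * r * |b|)| := by
    rw [eq_neg_of_add_eq_zero_left a2, abs_neg, abs_mul, mul_comm κ, mul_assoc, ← mul_sub, abs_mul,
      abs_of_pos hr]
    exact (mul_le_mul_of_nonneg_right y2 (abs_nonneg c)).trans_lt (by linarith)
  have s5 : ¬ (|(y - v).1 0| = r ∧ |(y - v).1 1| = κ * r) := fun e => by
    have := abs_abs_sub_abs_le_abs_sub ((y - v).1 0 * a) (-((y - v).1 1 * b))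
    rw [abs_neg, sub_neg_eq_add, abs_mul, abs_mul, e.1, e.2] at this
    linarith
  rcases hs with hs | hs
  · refine book_of (Pi.single 1 (-c), b) (fun e => ?_) {l, (fc 0 : P →ₗ[ℝ] ℝ)} ?_
    · rw [show b = 0 from e, mul_zero, add_zero, abs_zero, mul_zero, sub_zero, abs_mul, abs_mul,
        abs_abs, hs, abs_of_pos hr] at s4
      exact lt_irrefl _ s4
    filter_upwards [hX, a3] with z b1 b2 b3 b4
    rcases b1 b3 b4 with b5 | b5 | b5
    · refine ⟨l, Finset.mem_insert_self _ _, (H.lam l a1).1, ?_, b2 b5.1⟩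
      rw [lin_eq, ha, hb, hc]
      simp [mul_comm]
    · exact ⟨_, Finset.mem_insert_of_mem (Finset.mem_singleton_self _), f0, by simp [fc0], b5.2⟩
    · exact absurd ⟨hs, b5.1⟩ s5
  · refine book_of (Pi.single 0 (-c), a) (fun e => ?_) {l, (fc 1 : P →ₗ[ℝ] ℝ)} ?_
    · rw [show a = 0 from e, mul_zero, zero_add, abs_zero, mul_zero, zero_sub, abs_neg, abs_mul,
        abs_mul, abs_abs, hs, abs_of_pos (mul_pos hκ.1 hr)] at s4
      exact lt_irrefl _ s4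
    filter_upwards [hX, a3] with z b1 b2 b3 b4
    rcases b1 b3 b4 with b5 | b5 | b5
    · refine ⟨l, Finset.mem_insert_self _ _, (H.lam l a1).1, ?_, b2 b5.1⟩
      rw [lin_eq, ha, hb, hc]
      simp [mul_comm]
    · exact absurd ⟨b5.1, hs⟩ s5
    · exact ⟨_, Finset.mem_insert_of_mem (Finset.mem_singleton_self _), f1, by simp [fc1], b5.2⟩

end P073.Ax
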