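import Vale.Agent.P073Z.Ax.Small
import Vale.Agent.P073Z.CosFin
import Vale.Agent.P073Z.A12

/-!
# The PL Alexander theorem: cutting a vertical sphere along a horizontal disc
-/

open Set Metric Topology Filter

namespace P073.Ax

namespace Rc

/-- the plane at the level `τ` -/
def lev (τ : ℝ) : ConHomeo (univ : Set E2) ((univ : Set E2) ×ˢ ({τ} : Set ℝ)) where
  toFun := fun x => (x, τ)
  invFun := Prod.fst
  mapsTo := fun _ _ => ⟨trivial, rfl⟩
  mapsTo_inv := mapsTo_univ _ _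
  left_inv := fun _ _ => rfl
  right_inv := fun _ hz => Prod.ext rfl hz.2.symm
  cont := (continuous_id.prodMk continuous_const).continuousOn
  cont_inv := continuous_fst.continuousOn
  conical := by
    let A : E2 →ᵃ[ℝ] P := (LinearMap.inl ℝ E2 ℝ).toAffineMap + AffineMap.const ℝ E2 (0, τ)
    have h : (fun x => (x, τ)) = fun x => A x := funext fun x => by simp [A]
    rw [h]
    exact conicalOn_of_affine A (IsOpen.conicalSet isOpen_univ)

theorem lev_image (τ : ℝ) (D : Set E2) : (lev τ).toFun '' D = D ×ˢ ({τ} : Set ℝ) :=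
  prod_singleton.symm

theorem conBall_lev {n : ℕ} {D C : Set E2} (h : ConBall n D C) (τ : ℝ) :
    ConBall n (D ×ˢ ({τ} : Set ℝ)) (C ×ˢ {τ}) := by
  have := h.image (lev τ) (subset_univ _)
  rwa [lev_image, lev_image] at this

theorem circ_conn {E : Type} [NormedAddCommGroup E] [NormedSpace ℝ E] {J : Set E}
    (h : IsCircle J) : IsPreconnected J := by
  obtain ⟨φ⟩ := h
  rw [← φ.image_eq]
  refine (isPreconnected_sphere ?_ _ _).image _ φ.cont
  rw [← Module.finrank_eq_rank]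
  simp

section

variable {ι : Type} {F : Finset ℝ} {J : ι → Set E2} {a b : ι → ℝ} {s : Finset ι} {S : Set P}

theorem tow_not_mem (h : Tow F J a b s S) {i : ι} (hi : i ∈ s) {t : ℝ}
    (ht : t ∈ Ioo (a i) (b i)) : t ∉ F := fun hF => disjoint_left.1 (h.gap i hi) ht hF

theorem tow_sub (h : Tow F J a b s S) {i : ι} (hi : i ∈ s) : J i ×ˢ Ioo (a i) (b i) ⊆ S :=
  fun z hz => (h.mem z (tow_not_mem h hi hz.2)).2 ⟨i, hi, hz⟩

open Classical in
theorem tow_cut (h : Tow F J a b s S) {D₁ D₂ : Set P} {D : Set E2} {τ : ℝ} (hτ : τ ∈ F)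
    (h1 : IsClosed D₁) (h2 : IsClosed D₂) (hu : D₁ ∪ D₂ = S) (hi : ∀ z ∈ D₁ ∩ D₂, z.2 = τ) :
    Tow F J a b (s.filter fun i => J i ×ˢ Ioo (a i) (b i) ⊆ D₁) (D ×ˢ {τ} ∪ D₁) := by
  have m := fun i (hi : i ∈ s.filter fun i => J i ×ˢ Ioo (a i) (b i) ⊆ D₁) =>
    (Finset.mem_filter.1 hi).1
  refine ⟨fun i hi => h.circ i (m i hi), fun i hi => h.lt i (m i hi),
    fun i hi => h.left i (m i hi), fun i hi => h.right i (m i hi), fun i hi => h.gap i (m i hi),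
    fun i hi j hj => h.disj i (m i hi) j (m j hj), fun z hz => ⟨?_, ?_⟩⟩
  · rintro (h3 | h3)
    · exact absurd (h3.2 ▸ hτ) hz
    obtain ⟨i, i1, i2⟩ := (h.mem z hz).1 (hu ▸ Or.inl h3)
    refine ⟨i, Finset.mem_filter.2 ⟨i1, ?_⟩, i2⟩
    refine (isPreconnected_iff_subset_of_disjoint_closed.1
      ((circ_conn (h.circ i i1)).prod isPreconnected_Ioo) D₁ D₂ h1 h2 (hu ▸ tow_sub h i1)
      (eq_empty_of_forall_notMem fun w hw =>
        tow_not_mem h i1 hw.1.2 (hi w hw.2 ▸ hτ))).resolve_right fun h4 => ?_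
    exact hz (hi z ⟨h3, h4 i2⟩ ▸ hτ)
  · rintro ⟨i, i1, i2⟩
    exact Or.inr ((Finset.mem_filter.1 i1).2 i2)

open Classical in
theorem card_cut {D₁ D₂ S' : Set P} {τ : ℝ} (hn : NOFLAT) (hτ : τ ∈ F)
    (hi : ∀ z ∈ D₁ ∩ D₂, z.2 = τ) (hS : ConSphere 2 S')
    (h : Tow F J a b (s.filter fun i => J i ×ˢ Ioo (a i) (b i) ⊆ D₂) S') :
    (s.filter fun i => J i ×ˢ Ioo (a i) (b i) ⊆ D₁).card < s.card := by
  obtain ⟨z, hz, hF⟩ := hn F hS
  obtain ⟨i, i1, i2⟩ := (h.mem z hF).1 hz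
  obtain ⟨i3, i4⟩ := Finset.mem_filter.1 i1
  refine Finset.card_lt_card (Finset.filter_ssubset.2 ⟨i, i3, fun i5 => hF ?_⟩)
  exact hi z ⟨i5 i2, i4 i2⟩ ▸ hτ

end

end Rc

open Rc

theorem rcut_of (hn : NOFLAT) : RCUT := by
  intro ι F J a b s S D C τ hS hT hD hτ hDS
  have hB := conBall_lev hD τ
  have hCS : C ×ˢ ({τ} : Set ℝ) ⊆ S := hDS ▸ inter_subset_right
  obtain ⟨D₁, D₂, b1, b2, hu, hi, -⟩ := cos_thm.1 hS (mod_thm.2.2.1.2 hB.conSphere) hCS
  have sph : ∀ X, ConBall 2 X (C ×ˢ ({τ} : Set ℝ)) → X ⊆ S → ConSphere 2 (D ×ˢ {τ} ∪ X) :=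
    fun X hX hXS => cos_thm.2.1 hB hX (Subset.antisymm
      (hDS ▸ inter_subset_inter_right _ hXS) (subset_inter hB.1 hX.1))
  have s1 := sph D₁ b1 (hu ▸ subset_union_left)
  have s2 := sph D₂ b2 (hu ▸ subset_union_right)
  have i1 : ∀ z ∈ D₁ ∩ D₂, z.2 = τ := fun z hz => (hi ▸ hz).2
  have i2 : ∀ z ∈ D₂ ∩ D₁, z.2 = τ := fun z hz => i1 z hz.symm
  have t1 := tow_cut hT (D := D) hτ b1.isClosed b2.isClosed hu i1
  have t2 := tow_cut hT (D := D) hτ b2.isClosed b1.isClosed ((union_comm _ _).trans hu) i2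
  exact ⟨D₁, D₂, _, _, hB, b1, b2, hu, hi, s1, s2, t1, t2, card_cut hn hτ i1 s2 t2,
    card_cut hn hτ i2 s1 t1⟩

theorem rcut : RCUT := rcut_of noflat

end P073.Ax
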