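import Vale.Agent.P073Z.Ax.Small
import Vale.Agent.P073Z.A12
import Vale.Agent.P073Z.CosFin

/-!
# The PL Alexander theorem: finding a horizontal disc
-/

open Set Metric Topology Filter

namespace P073.Ax

namespace Rf

/-! ### discs in the plane -/

section plane

variable {D C D' C' K J : Set E2} {x : E2}

theorem nhds_iff (h : ConBall 2 D C) (hx : x ∈ D) : D ∈ 𝓝 x ↔ x ∉ C := by
  rw [← (plMan_open isOpen_univ).ball_nhds_iff h (subset_univ _) hx, nhdsWithin_univ]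

theorem open_int (h : ConBall 2 D C) : IsOpen (D \ C) :=
  isOpen_iff_mem_nhds.2 fun _ hx => inter_mem ((nhds_iff h hx.1).2 hx.2)
    (h.isCompact_bdry.isClosed.isOpen_compl.mem_nhds hx.2)

theorem not_bd (h : ConBall 2 D C) (h' : ConBall 2 D' C') (hs : D' ⊆ D) (hx : x ∈ D' \ C') :
    x ∉ C :=
  (nhds_iff h (hs hx.1)).1 (mem_of_superset ((nhds_iff h' hx.1).2 hx.2) hs)

theorem sub_int (h : ConBall 2 D C) (hK : IsPreconnected K) (hd : Disjoint K C) (hxK : x ∈ K)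
    (hx : x ∈ D) : K ⊆ D :=
  sub_of_clopen hK h.isClosed ⟨x, hxK, hx⟩ fun _ hz hzD =>
    mem_of_superset ((nhds_iff h hzD).2 (disjoint_left.1 hd hz)) fun _ hw _ => hw

theorem exists_square (hK : IsCompact K) : ∃ Q B, ConBall 2 Q B ∧ K ⊆ Q := by
  obtain ⟨R, hR, h⟩ := hK.isBounded.subset_closedBall_lt 0 0
  exact ⟨_, _, conBall_closedBall 0 hR, h⟩

theorem exists_disc (hJ : IsCircle J) : ∃ Δ, ConBall 2 Δ J := by
  obtain ⟨Q, B, hQ, h⟩ := exists_square hJ.isCompact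
  obtain ⟨Δ, -, h1, -⟩ := cid hQ hJ h
  exact ⟨Δ, h1⟩

theorem disc_sub (h : ConBall 2 D C) (h' : ConBall 2 D' C') (hs : C' ⊆ D) : D' ⊆ D := by
  obtain ⟨Δ, h1, h2, -⟩ := cid h h'.isCircleD hs
  obtain ⟨Q, B, hQ, h3⟩ := exists_square (h.isCompact.union h'.isCompact)
  rw [A12.subdisc_unique iod hQ h' h2 (subset_union_right.trans h3)
    (h1.trans (subset_union_left.trans h3))]
  exact h1

theorem dense_compl (hJ : IsCircle J) : Dense Jᶜ := by
  obtain ⟨Δ, h⟩ := exists_disc hJ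
  rw [← interior_eq_empty_iff_dense_compl, eq_empty_iff_forall_notMem]
  intro x hx
  exact (nhds_iff h (h.1 (interior_subset hx))).1
    (mem_of_superset (mem_interior_iff_mem_nhds.1 hx) h.1) (interior_subset hx)

/-- a circle through an inner point of a disc bounds a subdisc or contains a cross-cut -/
theorem cut (h : ConBall 2 D C) (hJ : IsCircle J) (hx : x ∈ D \ C) (hxJ : x ∈ J) :
    J ⊆ D ∨ ∃ D₁ C₁ D₂ C₂, ConBall 2 D₁ C₁ ∧ ConBall 2 D₂ C₂ ∧ D₁ ∪ D₂ = D ∧ C₁ ⊆ J ∪ C ∧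
      C₂ ⊆ J ∪ C ∧ x ∈ C₁ ∧ x ∈ C₂ := by
  have hC := h.isCircleD
  by_cases hs : (J ∩ C).Subsingleton
  · left
    obtain ⟨p, hp, h1⟩ : ∃ p ∈ C, J ∩ C ⊆ {p} := by
      rcases (J ∩ C).eq_empty_or_nonempty with e | ⟨p, hp⟩
      · obtain ⟨p, hp⟩ := (A12.circle_isConnected hC).nonempty
        exact ⟨p, hp, e ▸ empty_subset _⟩
      · exact ⟨p, hp.2, fun q hq => hs hq hp⟩
    have h2 := sub_int h (A12.circle_sdiff_point hJ p)
      (disjoint_left.2 fun y hy hyC => hy.2 (h1 ⟨hy.1, hyC⟩))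
      ⟨hxJ, fun e => hx.2 (mem_singleton_iff.1 e ▸ hp)⟩ hx.1
    intro y hy
    by_cases e : y = p
    · exact e ▸ h.1 hp
    · exact h2 ⟨hy, e⟩
  · right
    obtain ⟨p, hp, q, hq, hpq⟩ := not_subsingleton_iff.1 hs
    obtain ⟨A, hA, hxA, hAJ⟩ : ∃ A, IsArc A p q ∧ x ∈ A ∧ A ⊆ J := by
      obtain ⟨A₁, A₂, a1, a2, hu, -⟩ := A12.circle_arcs hJ hp.1 hq.1 hpq
      rcases (hu ▸ hxJ : x ∈ A₁ ∪ A₂) with h1 | h1
      · exact ⟨A₁, a1, h1, hu ▸ subset_union_left⟩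
      · exact ⟨A₂, a2, h1, hu ▸ subset_union_right⟩
    obtain ⟨A₁, A₂, a1, a2, hu, hi⟩ := A12.arc_split hA hxA (fun e => hx.2 (e ▸ hp.2))
      fun e => hx.2 (e ▸ hq.2)
    have hCc := h.isCompact_bdry.isClosed
    obtain ⟨p', hp', B₁, b1, s1, e1⟩ := A12.arc_last_exit a1 hCc hp.2 hx.2
    obtain ⟨q', hq', B₂, b2, s2, e2⟩ := A12.arc_last_exit a2.symm hCc hq.2 hx.2
    have hβ : IsArc (B₁ ∪ B₂) p' q' := b1.trans b2.symm (hi ▸ inter_subset_inter s1 s2)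
    have hβC : (B₁ ∪ B₂) ∩ C = {p', q'} := by rw [union_inter_distrib_right, e1, e2]; rfl
    have hxβ : x ∈ B₁ ∪ B₂ := Or.inl b1.right_mem
    have hβJ : B₁ ∪ B₂ ⊆ J := (union_subset_union s1 s2).trans (hu ▸ hAJ)
    have hβD : B₁ ∪ B₂ ⊆ D := by
      have h2 := sub_int h hβ.isPreconnected_interior
        (disjoint_left.2 fun y hy hyC => hy.2 (hβC ▸ (⟨hy.1, hyC⟩ : y ∈ (B₁ ∪ B₂) ∩ C)))
        ⟨hxβ, fun e => hx.2 (hβC.symm.subset e).2⟩ hx.1
      intro y hy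
      by_cases e : y ∈ ({p', q'} : Set E2)
      · exact h.1 (hβC.symm.subset e).2
      · exact h2 ⟨hy, e⟩
    obtain ⟨C₁, C₂, c1, c2, hu', hi'⟩ := A12.circle_arcs hC hp'.2 hq'.2 hβ.ne
    obtain ⟨D₁, D₂, d1, d2, hD, -⟩ := xc h hβ hβD hβC c1 c2 hu' hi'
    exact ⟨D₁, _, D₂, _, d1, d2, hD, union_subset_union hβJ (hu' ▸ subset_union_left),
      union_subset_union hβJ (hu' ▸ subset_union_right), Or.inl hxβ, Or.inl hxβ⟩

/-- descent on discs with boundary in a graph -/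
theorem descent (hF : FINC) {G Δ : Set E2} (hΔ : IsCompact Δ) (hG : IsCompact G) (hl : LocCone G)
    (hd : Dense Gᶜ) {p : Set E2 → Prop}
    (step : ∀ D C, ConBall 2 D C → D ⊆ Δ → C ⊆ G → p D →
      ∃ D' C', ConBall 2 D' C' ∧ D' ⊆ D ∧ C' ⊆ G ∧ p D' ∧ ¬ C' ⊆ C)
    (h : ConBall 2 D C) (h1 : D ⊆ Δ) (h2 : C ⊆ G) : ¬ p D := by
  classical
  obtain ⟨𝒰, hU, hc⟩ := hF hΔ hG hl
  generalize hn : (𝒰.filter fun U => (U ∩ D).Nonempty).card = n
  induction n using Nat.strong_induction_on generalizing D C with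
  | _ n ih =>
  intro hp
  obtain ⟨D', C', h', s1, s2, hp', hne⟩ := step D C h h1 h2 hp
  refine ih _ ?_ h' (s1.trans h1) s2 rfl hp'
  have h3 : ((D \ C) ∩ D'ᶜ).Nonempty := by
    by_contra h4
    have h5 : D \ C ⊆ D' := fun y hy => by_contra fun e => h4 ⟨y, hy, e⟩
    have h6 : D ⊆ D' := (cos_thm.2.2 h).2.trans (closure_minimal h5 h'.isClosed)
    exact hne fun y hy => by_contra fun e => not_bd h' h h6 ⟨s1 (h'.1 hy), e⟩ hy
  obtain ⟨y, hy, hyG⟩ := hd.inter_open_nonempty _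
    ((open_int h).inter h'.isClosed.isOpen_compl) h3
  obtain ⟨U, hU1, hyU⟩ := mem_iUnion₂.1 (hc ⟨h1 hy.1.1, hyG⟩)
  rw [← hn]
  refine Finset.card_lt_card ⟨fun V hV => ?_, fun hs => ?_⟩
  · rw [Finset.mem_filter] at hV ⊢
    exact ⟨hV.1, hV.2.mono (inter_subset_inter_right _ s1)⟩
  · obtain ⟨z, hz, hzD⟩ := (Finset.mem_filter.1
      (hs (Finset.mem_filter.2 ⟨hU1, y, hyU, hy.1.1⟩))).2
    exact hy.2 (sub_int h' (hU U hU1).1 ((hU U hU1).2.mono_right s2) hz hzD hyU)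

end plane

/-! ### the levels of a vertical sphere -/

/-- the slice at height `τ` -/
def sl (S : Set P) (τ : ℝ) : Set E2 := {x | (x, τ) ∈ S}

variable {ι : Type} {F : Finset ℝ} {J : ι → Set E2} {a b : ι → ℝ} {s : Finset ι} {S : Set P}

theorem sl_closed (hS : IsClosed S) (τ : ℝ) : IsClosed (sl S τ) :=
  hS.preimage (Continuous.prodMk_left τ)

theorem tower_open (hT : Tow F J a b s S) {i : ι} (hi : i ∈ s) {x : E2} (hx : x ∈ J i) {t : ℝ}
    (ht : t ∈ Ioo (a i) (b i)) : (x, t) ∈ S :=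
  (hT.mem (x, t) (disjoint_left.1 (hT.gap i hi) ht)).2 ⟨i, hi, hx, ht⟩

theorem tower_sub (hS : IsClosed S) (hT : Tow F J a b s S) {i : ι} (hi : i ∈ s) {x : E2}
    (hx : x ∈ J i) {t : ℝ} (ht : t ∈ Icc (a i) (b i)) : (x, t) ∈ S := by
  rw [← closure_Ioo (hT.lt i hi).ne] at ht
  exact closure_minimal (t := {t | (x, t) ∈ S}) (fun _ => tower_open hT hi hx)
    (hS.preimage (Continuous.prodMk_right x)) ht

theorem left_iff (hT : Tow F J a b s S) {i j : ι} (hi : i ∈ s) (hj : j ∈ s) :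
    a i = a j ↔ b i = b j := by
  have g : ∀ i ∈ s, ∀ t ∈ F, t ≤ a i ∨ b i ≤ t := fun i hi t ht => by
    by_contra h
    push Not at h
    exact disjoint_left.1 (hT.gap i hi) h ht
  have l1 := hT.lt i hi
  have l2 := hT.lt j hj
  constructor
  · intro e
    rcases g i hi _ (hT.right j hj) with h1 | h1
    · linarith
    · rcases g j hj _ (hT.right i hi) with h2 | h2
      · linarith
      · linarith
  · intro e
    rcases g i hi _ (hT.left j hj) with h1 | h1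
    · rcases g j hj _ (hT.left i hi) with h2 | h2
      · linarith
      · linarith
    · linarith

theorem level (τ : ℝ) : PLMan 2 {z : P | z.2 = τ} := by
  let A : E2 →ᵃ[ℝ] P := (LinearMap.inl ℝ E2 ℝ).toAffineMap + AffineMap.const ℝ E2 (0, τ)
  have hA : ∀ x, A x = (x, τ) := fun x => by simp [A]
  have e : range A = {z : P | z.2 = τ} := by
    ext z
    constructor
    · rintro ⟨x, rfl⟩
      rw [hA]
      rfl
    · intro hz
      exact ⟨z.1, by rw [hA]; exact Prod.ext rfl hz.symm⟩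
  rw [← e]
  exact plane A fun x x' e => by rw [hA, hA] at e; exact congrArg Prod.fst e

/-- off the towers the slice is open -/
theorem sl_nhds (hS : ConSphere 2 S) (hT : Tow F J a b s S) {τ : ℝ} (hτ : τ ∈ F) {x : E2}
    (hx : x ∈ sl S τ) (h : ∀ i ∈ s, a i = τ ∨ b i = τ → x ∉ J i) : sl S τ ∈ 𝓝 x := by
  have h1 : ∀ᶠ z in 𝓝 ((x, τ) : P), ∀ i ∈ s, z ∉ J i ×ˢ Icc (a i) (b i) := by
    refine (Finset.eventually_all _).2 fun i hi => ?_
    refine ((hT.circ i hi).isCompact.isClosed.prod isClosed_Icc).isOpen_compl.mem_nhds ?_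
    rintro ⟨h2, h3, h4⟩
    refine h i hi ?_ h2
    by_contra h5
    push Not at h5
    exact disjoint_left.1 (hT.gap i hi) ⟨lt_of_le_of_ne h3 h5.1, lt_of_le_of_ne h4 h5.2.symm⟩ hτ
  have h2 : ∀ᶠ z in 𝓝 ((x, τ) : P), z.2 ∉ F.erase τ :=
    ((F.erase τ).finite_toSet.isClosed.isOpen_compl.preimage continuous_snd).mem_nhds (by simp)
  have h3 := flatopen hS.plMan (level τ) hx (by
    filter_upwards [h1, h2] with z e1 e2 hz
    by_contra e
    obtain ⟨i, hi, h4, h5⟩ := (hT.mem z fun h6 => e2 (Finset.mem_erase.2 ⟨e, h6⟩)).1 hz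
    exact e1 i hi ⟨h4, Ioo_subset_Icc_self h5⟩)
  exact mem_of_superset ((Continuous.prodMk_left τ).continuousAt.eventually h3) fun y hy => hy rfl

/-- no tower ends at an inner point of the slice -/
theorem not_tower (hS : ConSphere 2 S) (hT : Tow F J a b s S) {τ : ℝ} {x : E2}
    (hx : sl S τ ∈ 𝓝 x) {i : ι} (hi : i ∈ s) (h : a i = τ ∨ b i = τ) : x ∉ J i := by
  intro hxJ
  have h1 := flatopen (level τ) hS.plMan (z := (x, τ)) rfl (by
    filter_upwards [(continuous_fst.tendsto ((x, τ) : P)) hx] with z hz e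
    rw [show z = (z.1, τ) from Prod.ext rfl e]
    exact hz)
  have h2 : τ ∈ closure (Ioo (a i) (b i)) := by
    rw [closure_Ioo (hT.lt i hi).ne]
    rcases h with rfl | rfl
    · exact left_mem_Icc.2 (hT.lt i hi).le
    · exact right_mem_Icc.2 (hT.lt i hi).le
  obtain ⟨t, h3, ht⟩ := mem_closure_iff_nhds.1 h2 _
    ((Continuous.prodMk_right x).continuousAt.eventually h1)
  have h4 : t = τ := h3 (tower_open hT hi hxJ ht)
  rcases h with e | e
  · exact ht.1.ne (e.trans h4.symm)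
  · exact ht.2.ne (h4.trans e.symm)

/-- a horizontal disc which does not cut and is not contained in the sphere meets a tower -/
theorem meets (hS : ConSphere 2 S) (hT : Tow F J a b s S) {τ : ℝ} (hτ : τ ∈ F) {D C : Set E2}
    (h : ConBall 2 D C) (hC : C ⊆ sl S τ) (h1 : D ∩ sl S τ ≠ C) (h2 : ¬ D ⊆ sl S τ) :
    ∃ x ∈ D \ C, ∃ j ∈ s, (a j = τ ∨ b j = τ) ∧ x ∈ J j := by
  by_contra h3
  push Not at h3
  have hc := sl_closed (sph_conn hS).2.isClosed τ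
  have h4 : ((D \ C) ∩ sl S τ).Nonempty := by
    by_contra h5
    exact h1 (Subset.antisymm (fun y hy => by_contra fun e => h5 ⟨y, ⟨hy.1, e⟩, hy.2⟩)
      (subset_inter h.1 hC))
  have h5 := sub_of_clopen (cos_thm.2.2 h).1.isPreconnected hc h4 fun z hz hz' =>
    mem_of_superset (sl_nhds hS hT hτ hz' (h3 z hz)) fun _ hw _ => hw
  refine h2 fun y hy => ?_
  by_cases e : y ∈ C
  · exact hC e
  · exact h5 ⟨hy, e⟩

theorem main (hF : FINC) (hS : ConSphere 2 S) (hT : Tow F J a b s S) {Δ : ι → Set E2}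
    (hΔ : ∀ i ∈ s, ConBall 2 (Δ i) (J i))
    (hno : ∀ D C τ, ConBall 2 D C → τ ∈ F → D ∩ sl S τ ≠ C) :
    ∃ i ∈ s, Δ i ⊆ sl S (a i) ∧ Δ i ⊆ sl S (b i) := by
  classical
  have hc := (sph_conn hS).2.isClosed
  have ja : ∀ i ∈ s, J i ⊆ sl S (a i) := fun i hi x hx =>
    tower_sub hc hT hi hx (left_mem_Icc.2 (hT.lt i hi).le)
  have jb : ∀ i ∈ s, J i ⊆ sl S (b i) := fun i hi x hx =>
    tower_sub hc hT hi hx (right_mem_Icc.2 (hT.lt i hi).le)
  have hne : s.Nonempty := by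
    obtain ⟨z, hz, hzF⟩ := noflat F hS
    obtain ⟨i, hi, -⟩ := (hT.mem z hzF).1 hz
    exact ⟨i, hi⟩
  have hcap : (s.filter fun i => Δ i ⊆ sl S (b i)).Nonempty := by
    obtain ⟨i₀, hi₀, hm⟩ := s.exists_max_image b hne
    obtain ⟨i, hi, hmin⟩ := (s.filter fun i => b i = b i₀).exists_minimalFor Δ
      ⟨i₀, Finset.mem_filter.2 ⟨hi₀, rfl⟩⟩
    obtain ⟨hi, hb⟩ := Finset.mem_filter.1 hi
    refine ⟨i, Finset.mem_filter.2 ⟨hi, by_contra fun h => ?_⟩⟩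
    obtain ⟨x, hx, j, hj, e, hxj⟩ := meets hS hT (hT.right i hi) (hΔ i hi) (jb i hi)
      (hno _ _ _ (hΔ i hi) (hT.right i hi)) h
    have e' : b j = b i := e.resolve_left fun e => by
      have := hT.lt j hj
      have := hm j hj
      linarith
    have hd := hT.disj j hj i hi (fun e => hx.2 (e ▸ hxj)) ((left_iff hT hj hi).2 e')
    have h1 := disc_sub (hΔ i hi) (hΔ j hj) (sub_int (hΔ i hi)
      (A12.circle_isConnected (hT.circ j hj)).isPreconnected hd hxj hx.1)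
    exact not_bd (hΔ j hj) (hΔ i hi) (hmin (Finset.mem_filter.2 ⟨hj, e'.trans hb⟩) h1) hx hxj
  obtain ⟨i, hi, hm⟩ := Finset.exists_min_image _ a hcap
  obtain ⟨hi, hb⟩ := Finset.mem_filter.1 hi
  refine ⟨i, hi, by_contra fun h => ?_, hb⟩
  set t := insert i (s.filter fun j => b j = a i) with ht
  have hts : ∀ j ∈ t, j ∈ s ∧ J j ⊆ sl S (a i) := fun j hj => by
    rcases Finset.mem_insert.1 hj with rfl | hj
    · exact ⟨hi, ja _ hi⟩
    · obtain ⟨h1, h2⟩ := Finset.mem_filter.1 hj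
      exact ⟨h1, h2 ▸ jb j h1⟩
  have hG : (⋃ j ∈ t, J j) ⊆ sl S (a i) := iUnion₂_subset fun j hj => (hts j hj).2
  refine descent hF (G := ⋃ j ∈ t, J j) (hΔ i hi).isCompact
    (t.isCompact_biUnion fun j hj => (hT.circ j (hts j hj).1).isCompact) ?_ ?_
    (p := fun D => ¬ D ⊆ sl S (a i)) ?_ (hΔ i hi) Subset.rfl
    (subset_iUnion₂ (s := fun j (_ : j ∈ t) => J j) i (Finset.mem_insert_self _ _)) h
  · rw [show (⋃ j ∈ t, J j) = ⋃ j : t, J j from (iUnion_coe_set (t : Set ι) fun j => J j).symm]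
    exact LocCone.iUnion_finite fun j => (hT.circ j (hts j j.2).1).locCone
  · rw [compl_iUnion₂]
    exact dense_biInter_of_isOpen (S := (t : Set ι))
      (fun j hj => (hT.circ j (hts j hj).1).isCompact.isClosed.isOpen_compl) t.countable_toSet
      fun j hj => dense_compl (hT.circ j (hts j hj).1)
  intro D C hD hs hC hp
  obtain ⟨x, hx, j, hj, e, hxj⟩ := meets hS hT (hT.left i hi) hD (hC.trans hG)
    (hno _ _ _ hD (hT.left i hi)) hp
  have hxi := not_bd (hΔ i hi) hD hs hx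
  have e' : b j = a i := e.resolve_left fun e =>
    not_tower hS hT (mem_of_superset ((nhds_iff (hΔ i hi) (hs hx.1)).2 hxi) hb) hj
      (Or.inr ((left_iff hT hj hi).1 e)) hxj
  have hjG : J j ⊆ ⋃ j ∈ t, J j := subset_iUnion₂ (s := fun j (_ : j ∈ t) => J j) j
    (Finset.mem_insert_of_mem (Finset.mem_filter.2 ⟨hj, e'⟩))
  rcases cut hD (hT.circ j hj) hx hxj with h1 | ⟨D₁, C₁, D₂, C₂, d1, d2, hu, c1, c2, x1, x2⟩
  · refine ⟨Δ j, J j, hΔ j hj, disc_sub hD (hΔ j hj) h1, hjG, fun h2 => ?_, fun h2 => hx.2 (h2 hxj)⟩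
    have h3 := hm j (Finset.mem_filter.2 ⟨hj, e' ▸ h2⟩)
    have h4 := hT.lt j hj
    linarith
  · by_cases h1 : D₁ ⊆ sl S (a i)
    · exact ⟨D₂, C₂, d2, hu ▸ subset_union_right, c2.trans (union_subset hjG hC),
        fun h2 => hp (hu ▸ union_subset h1 h2), fun h2 => hx.2 (h2 x2)⟩
    · exact ⟨D₁, C₁, d1, hu ▸ subset_union_left, c1.trans (union_subset hjG hC), h1,
        fun h2 => hx.2 (h2 x1)⟩

end Rf

open Rf in
theorem rfind (hF : FINC) : RFIND := by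
  intro ι F J a b s S hS hT
  by_cases h : ∃ D C τ, ConBall 2 D C ∧ τ ∈ F ∧ D ∩ sl S τ = C
  · obtain ⟨D, C, τ, h1, h2, h3⟩ := h
    refine Or.inl ⟨D, C, τ, h1, h2, ?_⟩
    ext ⟨x, t⟩
    rw [← h3]
    constructor
    · rintro ⟨⟨h4, rfl⟩, h5⟩
      exact ⟨⟨h4, h5⟩, rfl⟩
    · rintro ⟨⟨h4, h5⟩, rfl⟩
      exact ⟨⟨h4, rfl⟩, h5⟩
  · push Not at h
    have h1 : ∀ i, ∃ Δ, i ∈ s → ConBall 2 Δ (J i) := fun i => by
      by_cases hi : i ∈ s
      · obtain ⟨Δ, hΔ⟩ := exists_disc (hT.circ i hi)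
        exact ⟨Δ, fun _ => hΔ⟩
      · exact ⟨∅, fun h => absurd h hi⟩
    choose Δ hΔ using h1
    obtain ⟨i, hi, h2, h3⟩ := main hF hS hT hΔ h
    refine Or.inr ⟨Δ i, J i, a i, b i, hΔ i hi, hT.lt i hi, ?_⟩
    rintro ⟨x, t⟩ (⟨h4, h5⟩ | ⟨h4, rfl | rfl⟩)
    · exact tower_sub (sph_conn hS).2.isClosed hT hi h4 h5
    · exact h2 h4
    · exact h3 h4

theorem rfind_of (_ : FLATOPEN) (_ : PLANE) (_ : NOFLAT) (hF : FINC) (_ : SIS) : RFIND := rfind hF

end P073.Ax
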