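import Vale.Agent.P073Z.Ax.Sk
import Vale.Agent.P073Z.MAN.Ex

/-!
# The PL Alexander theorem: small lemmas
-/

open Set Metric Topology Filter

namespace P073.Ax

theorem flatopen : FLATOPEN := by
  intro E _ _ n M X z hM hX hz h
  have h1 := hX.iod' hM (f := id) (N := {w | w ∈ M → w ∈ X}) hz (mem_nhdsWithin_of_mem_nhds h)
    continuousOn_id (injOn_id _) fun w hw => hw.2 hw.1
  refine eventually_nhdsWithin_iff.1 (mem_of_superset h1 ?_)
  rintro _ ⟨w, hw, rfl⟩
  exact hw.1

theorem plane : PLANE := by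
  intro E _ _ _ A hA
  obtain ⟨g, hg⟩ := A.linear.exists_leftInverse_of_injective
    (LinearMap.ker_eq_bot.2 (A.linear_injective_iff.2 hA))
  have h1 : ∀ x, g (A x - A 0) = x := fun x => by
    have h2 := A.linearMap_vsub x 0
    rw [vsub_eq_sub, vsub_eq_sub, sub_zero] at h2
    rw [← h2]
    exact DFunLike.congr_fun hg x
  refine (plMan_open isOpen_univ).image
    { toFun := A
      invFun := fun y => g (y - A 0)
      mapsTo := fun x _ => mem_range_self x
      mapsTo_inv := mapsTo_univ _ _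
      left_inv := fun x _ => h1 x
      right_inv := ?_
      cont := A.continuous_of_finiteDimensional.continuousOn
      cont_inv := (g.continuous_of_finiteDimensional.comp
        (continuous_id.sub continuous_const)).continuousOn
      conical := conicalOn_of_affine A (IsOpen.conicalSet isOpen_univ) }
  rintro _ ⟨x, rfl⟩
  exact congrArg A (h1 x)

/-- a closed and relatively open part of a preconnected set -/
theorem sub_of_clopen {T : Type} [TopologicalSpace T] {S S' : Set T} (h' : IsPreconnected S')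
    (hS : IsClosed S) (hne : (S' ∩ S).Nonempty)
    (ho : ∀ z ∈ S', z ∈ S → ∀ᶠ w in 𝓝 z, w ∈ S' → w ∈ S) : S' ⊆ S := by
  intro x hx
  by_contra hxS
  obtain ⟨z, hz, hzS⟩ := hne
  obtain ⟨w, hw, h1, h2⟩ := h' (interior {w | w ∈ S' → w ∈ S}) Sᶜ isOpen_interior hS.isOpen_compl
    (fun y hy => (em (y ∈ S)).imp (fun h => mem_interior_iff_mem_nhds.2 (ho y hy h)) id)
    ⟨z, hz, mem_interior_iff_mem_nhds.2 (ho z hz hzS)⟩ ⟨x, hx, hxS⟩
  exact h2 (interior_subset h1 hw)

theorem sph_conn {E : Type} [NormedAddCommGroup E] [NormedSpace ℝ E] {S : Set E}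
    (h : ConSphere 2 S) : IsConnected S ∧ IsCompact S := by
  obtain ⟨φ⟩ := h
  refine ⟨?_, φ.symm.isCompact_right (isCompact_sphere _ _)⟩
  rw [← φ.symm.image_eq]
  exact (isConnected_sphere (by simp) _ zero_le_one).image _ φ.symm.cont

theorem sis : SIS := by
  intro E _ _ S S' h
  obtain ⟨h1, h2⟩ := sph_conn h
  refine ⟨h1, h2, fun h' hs => hs.antisymm ?_⟩
  obtain ⟨x, hx⟩ := h1.nonempty
  exact sub_of_clopen (sph_conn h').1.isPreconnected h2.isClosed ⟨x, hs hx, hx⟩ fun z _ hz =>
    flatopen h.plMan h'.plMan hz (Eventually.of_forall fun w hw => hs hw)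

theorem noflat : NOFLAT := by
  intro S F h
  obtain ⟨h1, h2⟩ := sph_conn h
  by_contra hn
  push Not at hn
  obtain ⟨p, hp⟩ := h1.nonempty
  have h3 : ∀ z ∈ S, z.2 = p.2 := fun z hz =>
    h1.isPreconnected.constant_of_mapsTo F.finite_toSet.isDiscrete continuous_snd.continuousOn
      (fun w hw => hn w hw) hz hp
  let A : E2 →ᵃ[ℝ] P := (LinearMap.inl ℝ E2 ℝ).toAffineMap + AffineMap.const ℝ E2 (0, p.2)
  have hA : ∀ x, A x = (x, p.2) := fun x => by simp [A]
  have h4 : S ⊆ range A := fun z hz => ⟨z.1, by rw [hA, ← h3 z hz]⟩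
  have h5 : range A ⊆ S := sub_of_clopen
    (isPreconnected_range A.continuous_of_finiteDimensional) h2.isClosed ⟨p, h4 hp, hp⟩
    fun z _ hz => flatopen h.plMan
      (plane A fun x x' e => by rw [hA, hA] at e; exact congrArg Prod.fst e) hz
      (Eventually.of_forall fun w hw => h4 hw)
  obtain ⟨R, hR⟩ := h2.isBounded.exists_norm_le
  have h6 := hR _ (h5 ⟨fun _ => |R| + 1, rfl⟩)
  rw [hA] at h6
  have h7 := (norm_le_pi_norm (fun _ : Fin 2 => |R| + 1) 0).trans ((norm_fst_le _).trans h6)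
  rw [Real.norm_of_nonneg (by positivity)] at h7
  linarith [le_abs_self R]

end P073.Ax
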