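import Vale.Agent.P073Z.Ax.Sk
import Vale.Agent.P073Z.TriU

/-!
# The PL Alexander theorem: general position of the edges
-/

open Set Metric Topology Filter Module

namespace P073.Ax

/-- a direction and a form for a subspace of dimension at most two -/
theorem exists_dir_form (W : Submodule ℝ E3) (hW : finrank ℝ W ≤ 2) :
    ∃ (d : E3) (l : E3 →ₗ[ℝ] ℝ), d ≠ 0 ∧ l ≠ 0 ∧ l d = 0 ∧ (∀ w ∈ W, l w = 0) ∧
      (1 ≤ finrank ℝ W → d ∈ W) ∧ (finrank ℝ W ≤ 1 → ∀ w ∈ W, ∃ t : ℝ, w = t • d) := by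
  rcases Nat.eq_zero_or_pos (finrank ℝ W) with h0 | h0
  · have hb : W = ⊥ := Submodule.finrank_eq_zero.1 h0
    refine ⟨Pi.single 0 1, LinearMap.proj 1, fun h => ?_, fun h => ?_, by simp, ?_, by omega, ?_⟩
    · simpa using congrFun h 0
    · simpa using LinearMap.congr_fun h (Pi.single 1 1)
    · intro w hw
      rw [hb, Submodule.mem_bot] at hw
      rw [hw, map_zero]
    · intro _ w hw
      rw [hb, Submodule.mem_bot] at hw
      exact ⟨0, by rw [hw, zero_smul]⟩
  · have hne : W ≠ ⊥ := fun h => by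
      rw [h, finrank_bot] at h0
      exact lt_irrefl _ h0
    obtain ⟨d, hd, hd0⟩ := Submodule.exists_mem_ne_zero_of_ne_bot hne
    have hlt : W < ⊤ := lt_top_iff_ne_top.2 fun h => by
      rw [h, finrank_top] at hW
      simp at hW
    obtain ⟨l, hl, hker⟩ := W.exists_le_ker_of_lt_top hlt
    refine ⟨d, l, hd0, hl, hker hd, fun w hw => hker hw, fun _ => hd, fun h1 w hw => ?_⟩
    obtain ⟨c, hc⟩ := exists_smul_eq_of_finrank_eq_one (K := ℝ) (V := W) (by omega)
      (x := ⟨d, hd⟩) (fun h => hd0 (congrArg Subtype.val h)) ⟨w, hw⟩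
    exact ⟨c, (congrArg Subtype.val hc).symm⟩

theorem strat_E3 {S : Set E3} (hS : ConSphere 2 S) :
    ∃ (V Dir : Finset E3) (Lam : Finset (E3 →ₗ[ℝ] ℝ)), Strat S V Dir Lam := by
  classical
  have hM := hS.plMan
  have hc : IsCompact S := by
    obtain ⟨φ⟩ := hS
    exact φ.symm.isCompact_right (isCompact_sphere _ _)
  obtain ⟨K, hK, rfl, -⟩ := Apx2.exists_complex tri hM (r := fun _ => 1)
    ⟨continuousOn_const, fun _ _ => one_pos⟩
  have hfin : Finite K.ι := by
    have := K.finite_subset hc Subset.rfl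
    rw [eq_univ_of_forall (s := {i | K.cell i ⊆ K.carrier}) K.cell_subset_carrier] at this
    exact finite_univ_iff.1 this
  have := Fintype.ofFinite K.ι
  have hdim : ∀ i, K.dim i ≤ 2 := fun i => hM.ball_dim_le (K.ball i) (K.cell_subset_carrier i)
  choose d l hd hl hld hlW hdW hWd using fun i =>
    exists_dir_form (vectorSpan ℝ (K.cell i)) ((hK i).2.2 ▸ hdim i)
  choose pt hpt using K.cell_nonempty
  have hsub : ∀ i, ∀ y ∈ K.cell i, ∀ z ∈ K.cell i, z - y ∈ vectorSpan ℝ (K.cell i) :=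
    fun i y hy z hz => vsub_mem_vectorSpan ℝ hz hy
  have hdm : ∀ i, d i ∈ Finset.univ.image d := fun i => Finset.mem_image_of_mem _ (by simp)
  have hlm : ∀ i, l i ∈ Finset.univ.image l := fun i => Finset.mem_image_of_mem _ (by simp)
  refine ⟨Finset.univ.image pt, Finset.univ.image d, Finset.univ.image l, ?_, ?_, ?_, ?_, ?_⟩
  · intro v hv
    obtain ⟨i, -, rfl⟩ := Finset.mem_image.1 hv
    exact K.cell_subset_carrier i (hpt i)
  · intro v hv
    obtain ⟨i, -, rfl⟩ := Finset.mem_image.1 hv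
    exact hd i
  · intro v hv
    obtain ⟨i, -, rfl⟩ := Finset.mem_image.1 hv
    exact ⟨hl i, d i, hdm i, hld i⟩
  · intro y hy hyV
    obtain ⟨c, hc⟩ := K.exists_ocell hy
    have h1 : 1 ≤ K.dim c := by
      by_contra h
      obtain ⟨a, ha⟩ := K.exists_vertex (i := c) (by omega)
      have h2 := hpt c
      have h3 := hc.1
      rw [ha, mem_singleton_iff] at h2 h3
      exact hyV (Finset.mem_image.2 ⟨c, by simp, h2.trans h3.symm⟩)
    refine ⟨d c, hdm c, (K.eventually_coface hc).mono fun z hz hzS => ?_⟩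
    obtain ⟨j, hj⟩ := K.mem_carrier.1 hzS
    exact ⟨l j, hlm j, hlW j _ (vectorSpan_mono ℝ (hz j hj) (hdW c ((hK c).2.2 ▸ h1))),
      hlW j _ (hsub j y (hz j hj hc.1) z hj)⟩
  · intro v hv
    obtain ⟨i, -, rfl⟩ := Finset.mem_image.1 hv
    refine (K.eventually_star (K.cell_subset_carrier i (hpt i))).mono fun y hy hyS => ?_
    obtain ⟨c, hc⟩ := K.exists_ocell hyS
    have hv := hsub c _ (hy c hc.1) y hc.1
    by_cases h1 : K.dim c ≤ 1
    · exact Or.inl ⟨d c, hdm c, hWd c ((hK c).2.2 ▸ h1) _ hv⟩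
    · refine Or.inr ⟨l c, hlm c, hlW c _ hv, ?_⟩
      have := K.sub_carrier.cell_mem_nhdsWithin hc fun j _ _ => by have := hdim j; omega
      exact (eventually_nhdsWithin_iff.1 this).mono fun z hz hzS =>
        hlW c _ (hsub c y hc.1 z (hz hzS))

theorem Strat.image {E F : Type} [NormedAddCommGroup E] [NormedSpace ℝ E] [NormedAddCommGroup F]
    [NormedSpace ℝ F] [DecidableEq F] [DecidableEq (F →ₗ[ℝ] ℝ)] {S : Set E} {V Dir : Finset E}
    {Lam : Finset (E →ₗ[ℝ] ℝ)} (h : Strat S V Dir Lam) (L : E ≃L[ℝ] F) :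
    Strat (L '' S) (V.image L) (Dir.image L)
      (Lam.image fun l => l.comp L.symm.toLinearEquiv.toLinearMap) := by
  have ht : ∀ y : E, Tendsto L.symm (𝓝 (L y)) (𝓝 y) := fun y => by
    have := L.symm.continuous.tendsto (L y)
    rwa [L.symm_apply_apply] at this
  have hm : ∀ z : F, z ∈ L '' S → L.symm z ∈ S := by
    rintro _ ⟨y, hy, rfl⟩
    rwa [L.symm_apply_apply]
  have ha : ∀ (l : E →ₗ[ℝ] ℝ) (z : F),
      l.comp L.symm.toLinearEquiv.toLinearMap z = l (L.symm z) := fun _ _ => rfl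
  refine ⟨?_, ?_, ?_, ?_, ?_⟩
  · intro v hv
    obtain ⟨w, hw, rfl⟩ := Finset.mem_image.1 hv
    exact mem_image_of_mem _ (h.vert w hw)
  · intro v hv
    obtain ⟨w, hw, rfl⟩ := Finset.mem_image.1 hv
    exact fun e => h.dir w hw (L.injective (e.trans (map_zero L).symm))
  · intro v hv
    obtain ⟨l, hl, rfl⟩ := Finset.mem_image.1 hv
    obtain ⟨h1, d, hd, h2⟩ := h.lam l hl
    refine ⟨fun e => h1 (LinearMap.ext fun x => ?_), L d, Finset.mem_image_of_mem _ hd, ?_⟩
    · have := LinearMap.congr_fun e (L x)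
      rwa [ha, L.symm_apply_apply] at this
    · rwa [ha, L.symm_apply_apply]
  · rintro _ ⟨y, hy, rfl⟩ hyV
    obtain ⟨d, hd, h1⟩ := h.off y hy fun e => hyV (Finset.mem_image_of_mem _ e)
    refine ⟨L d, Finset.mem_image_of_mem _ hd, ((ht y).eventually h1).mono fun z hz hzS => ?_⟩
    obtain ⟨l, hl, h2, h3⟩ := hz (hm z hzS)
    refine ⟨_, Finset.mem_image_of_mem _ hl, ?_, ?_⟩
    · rwa [ha, L.symm_apply_apply]
    · rwa [ha, map_sub, L.symm_apply_apply]
  · intro v hv
    obtain ⟨w, hw, rfl⟩ := Finset.mem_image.1 hv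
    refine ((ht w).eventually (h.near w hw)).mono fun y hy hyS => ?_
    rcases hy (hm y hyS) with ⟨d, hd, t, e⟩ | ⟨l, hl, h1, h2⟩
    · refine Or.inl ⟨L d, Finset.mem_image_of_mem _ hd, t, ?_⟩
      rw [← map_smul, ← e, map_sub, L.apply_symm_apply]
    · refine Or.inr ⟨_, Finset.mem_image_of_mem _ hl, ?_, ?_⟩
      · rwa [ha, map_sub, L.symm_apply_apply]
      · refine ((L.symm.continuous.tendsto y).eventually h2).mono fun z hz hzS => ?_
        rw [ha, map_sub]
        exact hz (hm z hzS)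

theorem exists_height (Dir : Finset E3) (h : ∀ d ∈ Dir, d ≠ 0) :
    ∃ L : E3 ≃L[ℝ] P, ∀ d ∈ Dir, (L d).2 ≠ 0 := by
  obtain ⟨f, hf⟩ := Module.exists_dual_forall_apply_ne_zero (K := ℝ) (M := E3)
    (ι := Option Dir) (fun o => o.elim (Pi.single 2 1) Subtype.val) (by
      rintro (_ | ⟨d, hd⟩)
      · intro e
        simpa using congrFun e 2
      · exact h d hd)
  let g : E3 →ₗ[ℝ] P := (LinearMap.pi fun i : Fin 2 => LinearMap.proj i.castSucc).prod f
  have hg : Function.Injective g := by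
    rw [injective_iff_map_eq_zero]
    intro x hx
    have h0 : x 0 = 0 := congrFun (congrArg Prod.fst hx) 0
    have h1 : x 1 = 0 := congrFun (congrArg Prod.fst hx) 1
    have h2 : f x = 0 := congrArg Prod.snd hx
    have e : x = x 2 • (Pi.single 2 1 : E3) := by
      funext i
      fin_cases i <;> simp [h0, h1]
    rw [e, map_smul, smul_eq_mul, mul_eq_zero] at h2
    rw [e, h2.resolve_right (hf none), zero_smul]
  exact ⟨(g.linearEquivOfInjective hg (by simp)).toContinuousLinearEquiv,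
    fun d hd => hf (some ⟨d, hd⟩)⟩

theorem strat : STRAT := by
  intro S hS
  classical
  obtain ⟨V, Dir, Lam, h⟩ := strat_E3 hS
  obtain ⟨L, hL⟩ := exists_height Dir h.dir
  refine ⟨L, _, _, _, h.image L, fun d hd => ?_⟩
  obtain ⟨w, hw, rfl⟩ := Finset.mem_image.1 hd
  exact hL w hw

end P073.Ax
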