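import Vale.Agent.P073Z.Ax.Sk
import Vale.Agent.P073Z.SCH3F
import Vale.Agent.P073Z.A3
import Vale.Agent.P073Z.MAN.Ex
import Vale.Agent.P073Z.A12.Mod

/-!
# The PL Alexander theorem: three discs with a common boundary
-/

open Set Metric Topology Filter

namespace P073.Ax

namespace Surg

/-- the complement of a disc on a sphere -/
theorem other {E : Type} [NormedAddCommGroup E] [NormedSpace ℝ E] {S Δ J : Set E}
    (hS : ConSphere 2 S) (hΔ : ConBall 2 Δ J) (hsub : Δ ⊆ S) :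
    ∃ G, ConBall 2 G J ∧ Δ ∪ G = S ∧ Δ ∩ G = J := by
  obtain ⟨Δ₁, Δ₂, h1, h2, h3, h4, h5⟩ := cos_thm.1 hS hΔ.isCircleD (hΔ.1.trans hsub)
  rcases h5 Δ hsub hΔ with rfl | rfl
  · exact ⟨Δ₂, h2, h3, h4⟩
  · exact ⟨Δ₁, h1, union_comm Δ₁ Δ ▸ h3, inter_comm Δ₁ Δ ▸ h4⟩

/-- a connected set which misses a sphere is inside or outside -/
theorem side {S T : Set E3} (hS : ConSphere 2 S) (hT : IsPreconnected T) (hd : Disjoint T S) :
    T ⊆ Inside S ∨ T ⊆ (S ∪ Inside S)ᶜ := by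
  obtain ⟨h1, -, -, -, -, h6, -⟩ := jb.1 hS
  refine hT.subset_or_subset h1 h6.isClosed.isOpen_compl
    (disjoint_compl_right.mono_left subset_union_right) fun x hx => ?_
  by_cases h : x ∈ Inside S
  · exact Or.inl h
  · exact Or.inr fun h' => h'.elim (disjoint_left.1 hd hx) h

theorem fill {C B : Set E3} (h : ConBall 3 C B) : B ∪ Inside B = C := by
  rw [jb.2 h, union_sdiff_cancel h.1]

theorem sideB {C B T : Set E3} (h : ConBall 3 C B) (hT : IsPreconnected T) (hd : Disjoint T B) :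
    T ⊆ C \ B ∨ T ⊆ Cᶜ := by
  have := side h.conSphere hT hd
  rwa [fill h, jb.2 h] at this

theorem isOpen_int {C B : Set E3} (h : ConBall 3 C B) : IsOpen (C \ B) :=
  jb.2 h ▸ (jb.1 h.conSphere).1

/-- an open subset of a ball misses the boundary -/
theorem open_disj {C B O : Set E3} (h : ConBall 3 C B) (hO : IsOpen O) (hs : O ⊆ C) :
    Disjoint O B := by
  have h1 := (jb.1 h.conSphere).2.2.2.2.1
  rw [fill h] at h1
  rw [← h1]
  exact ((disjoint_compl_right.mono_left hs).closure_right hO).mono_right frontier_subset_closure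

/-- a sphere in a ball has its inside in the ball -/
theorem fill_sub {C B S : Set E3} (h : ConBall 3 C B) (hS : ConSphere 2 S) (hs : S ⊆ C) :
    S ∪ Inside S ⊆ C := by
  have h1 := (jb.1 h.conSphere).2.2.2.1
  rw [fill h] at h1
  rcases side hS h1.isPreconnected (disjoint_compl_left.mono_right hs) with h2 | h2
  · exfalso
    refine NormedSpace.unbounded_univ ℝ E3 ((h.isCompact.isBounded.union
      (jb.1 hS).2.2.2.2.2.1.isBounded).subset fun x _ => ?_)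
    by_cases hx : x ∈ C
    · exact Or.inl hx
    · exact Or.inr (Or.inr (h2 hx))
  · exact compl_subset_compl.1 h2

/-- a ball along a disc, inside a sphere -/
theorem collar {S Δ J : Set E3} (hS : ConSphere 2 S) (hΔ : ConBall 2 Δ J) (hsub : Δ ⊆ S) :
    LocCone (S ∪ Inside S) ∧ ∃ Y B, ConBall 3 Y B ∧ Y ⊆ S ∪ Inside S ∧ Δ ⊆ B := by
  obtain ⟨h1, h2, -, -, h5, h6, -⟩ := jb.1 hS
  obtain ⟨Y₀, κ, lam, -, -, -, hl, hκ, -, hP⟩ := col (S := S) (U := univ) (P := Inside S)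
    (M := (S ∪ Inside S)ᶜ) (ε := fun _ => 1) isOpen_univ (subset_univ _)
    (fun x _ hx => by
      rw [← h2] at hx ⊢
      exact isClosed_frontier.closure_subset hx)
    hS.plMan h1 h6.isClosed.isOpen_compl (disjoint_compl_right.mono_left subset_union_right)
    (by
      ext x
      by_cases hx : x ∈ Inside S
      · simpa [hx] using hx.1
      · simp [hx])
    (by rw [← h2]; nth_rewrite 2 [h2]; exact frontier_subset_closure)
    (by nth_rewrite 1 [← h5]; exact frontier_subset_closure)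
    ⟨continuousOn_const, fun _ _ => one_pos⟩
  have hX : S ∪ Inside S = {y | 0 ≤ lam y} := by
    ext y
    rw [mem_ofPred_eq, ← not_lt, ← (hP y (mem_univ y)).2, mem_compl_iff, not_not]
  have hI : Icc (0 : ℝ) 1 ⊆ Icc (-1) 1 := Icc_subset_Icc_left (by norm_num)
  refine ⟨hX ▸ locCone_setOf_ge (continuousOn_univ.1 hl.1) hl.2 0, _, _,
    (prod_thm hΔ one_pos).image κ (prod_mono hsub hI), ?_, fun x hx => ?_⟩
  · rintro _ ⟨⟨x, s⟩, ⟨hx, hs⟩, rfl⟩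
    rw [hX, mem_ofPred_eq, ((hκ x (hsub hx)).2 s (hI hs)).1]
    exact hs.1
  · exact ⟨(x, 0), Or.inr ⟨hx, Or.inl rfl⟩, (hκ x (hsub hx)).1⟩

/-- the nested case -/
theorem nested (hE : EXT3) (hU : UNI3) {C₁ C₂ D D₁ D₂ J : Set E3} (hD : ConBall 2 D J)
    (hD₁ : ConBall 2 D₁ J) (hD₂ : ConBall 2 D₂ J) (i1 : D ∩ D₁ = J) (i2 : D ∩ D₂ = J)
    (i12 : D₁ ∩ D₂ = J) (h₁ : ConBall 3 C₁ (D ∪ D₁)) (h₂ : ConBall 3 C₂ (D ∪ D₂))
    (hin : D₂ \ J ⊆ C₁ \ (D ∪ D₁)) : Bnd (D₁ ∪ D₂) := by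
  have hS : ConSphere 2 (D₁ ∪ D₂) := cos_thm.2.1 hD₁ hD₂ i12
  have s2 : D₂ ⊆ C₁ := fun x hx => by
    by_cases h : x ∈ J
    · exact h₁.1 (Or.inl (hD.1 h))
    · exact (hin ⟨hx, h⟩).1
  have c21 : C₂ ⊆ C₁ := by
    rw [← fill h₂]
    exact fill_sub h₁ h₂.conSphere (union_subset (subset_union_left.trans h₁.1) s2)
  obtain ⟨X, hX⟩ : ∃ X, X = (D₁ ∪ D₂) ∪ Inside (D₁ ∪ D₂) := ⟨_, rfl⟩
  have x1 : X ⊆ C₁ := hX ▸ fill_sub h₁ hS (union_subset (subset_union_right.trans h₁.1) s2)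
  obtain ⟨j1, j2, j3, -, -, j6, -⟩ := jb.1 hS
  have d12 : ∀ x ∈ D₁, x ∈ C₂ → x ∈ J := fun x hx hx2 => by
    by_contra h
    refine disjoint_left.1 (open_disj h₁ (isOpen_int h₂) (sdiff_subset.trans c21)) ⟨hx2, ?_⟩
      (Or.inr hx)
    rintro (h' | h')
    · exact h (i1 ▸ ⟨h', hx⟩)
    · exact h (i12 ▸ ⟨hx, h'⟩)
  have ib := open_disj h₁ j1 ((hX ▸ subset_union_right : _ ⊆ X).trans x1)
  have ic : Inside (D₁ ∪ D₂) ⊆ C₂ᶜ := by
    refine (sideB h₂ j3.isPreconnected (disjoint_union_right.2 ⟨ib.mono_right subset_union_left,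
      disjoint_left.2 fun x hx hx' => hx.1 (Or.inr hx')⟩)).resolve_left fun h => ?_
    obtain ⟨x, hx, hxJ⟩ := hD₁.diff_nonempty
    refine hxJ (d12 x hx (closure_minimal (h.trans sdiff_subset) h₂.isClosed ?_))
    exact frontier_subset_closure (j2.symm ▸ Or.inl hx)
  have xc : ∀ x ∈ X, x ∈ C₂ → x ∈ D₂ := fun x hx hx2 => by
    rcases hX ▸ hx with (h | h) | h
    · exact hD₂.1 (d12 x h hx2)
    · exact h
    · exact absurd hx2 (ic h)
  obtain ⟨lX, Y, B, hY, yx, hB⟩ := collar hS hD₂ subset_union_right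
  rw [← hX] at lX yx j6
  obtain ⟨G, hG, rfl, g2⟩ := other hY.conSphere hD₂ hB
  have gy : G ⊆ Y := subset_union_right.trans hY.1
  have dy : D₂ ⊆ Y := subset_union_left.trans hY.1
  have d2c : D₂ ⊆ C₂ := subset_union_right.trans h₂.1
  have dc : D ⊆ C₂ := subset_union_left.trans h₂.1
  have gc : ∀ x ∈ G, x ∈ C₂ → x ∈ J := fun x hx hx2 => g2 ▸ ⟨xc x (yx (gy hx)) hx2, hx⟩
  have hZ : ConBall 3 (Y ∪ C₂) (G ∪ D) := hU hY (union_comm D D₂ ▸ h₂) hD₂ hG hD g2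
    (inter_comm D D₂ ▸ i2)
    (Subset.antisymm (fun x hx => xc x (yx hx.1) hx.2) (subset_inter dy d2c))
  obtain ⟨Φ, hΦ, hΦ'⟩ := hE (ConHomeo.refl hG.conicalSet) (union_comm D₂ G ▸ hY) hG hD₂
    (inter_comm D₂ G ▸ g2) hZ hG hD
    (Subset.antisymm (fun x hx => gc x hx.1 (dc hx.2)) (subset_inter hG.1 hD.1)) (image_id' J)
  obtain ⟨O, hO⟩ : ∃ O, O = (Y ∪ C₂) \ (G ∪ D) := ⟨_, rfl⟩
  have oO : IsOpen O := hO ▸ isOpen_int hZ
  have oZ : O ⊆ X ∪ C₂ := hO ▸ sdiff_subset.trans (union_subset_union_left _ yx)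
  have ob := open_disj h₁ oO (oZ.trans (union_subset x1 c21))
  have xo : ∀ x ∈ X \ O, x ∈ Y ∪ C₂ → x ∈ G := fun x hx hx' => by
    by_contra h
    refine hx.2 (hO ▸ ⟨hx', ?_⟩)
    rintro (h' | h')
    · exact h h'
    · exact h (hG.1 (i2 ▸ ⟨h', xc x hx.1 (dc h')⟩))
  have cl : IsClosed (X \ O) := j6.isClosed.sdiff oO
  have lc : LocCone (X \ O) := lX.inter (hO ▸ (hZ.locCone.inter hZ.locCone_bdry.compl).compl)
  have hag : EqOn (ConHomeo.refl lc.conicalSet).toFun Φ.toFun ((X \ O) ∩ Y) := fun x hx =>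
    (hΦ (xo x hx.1 (Or.inl hx.2))).symm
  have him : (X \ O) ∩ (Y ∪ C₂) ⊆ (ConHomeo.refl lc.conicalSet).toFun '' ((X \ O) ∩ Y) :=
    fun x hx => ⟨x, ⟨hx.1, gy (xo x hx.1 hx.2)⟩, rfl⟩
  have d1 : D₁ ⊆ X \ O := fun x hx =>
    ⟨hX ▸ Or.inl (Or.inl hx), fun h => disjoint_left.1 ob h (Or.inr hx)⟩
  obtain ⟨Θ, t1, t2⟩ : ∃ Θ : ConHomeo ((X \ O) ∪ Y) ((X \ O) ∪ (Y ∪ C₂)),
      EqOn Θ.toFun (fun x => x) (X \ O) ∧ EqOn Θ.toFun Φ.toFun Y :=
    ⟨_, ConHomeo.glue_left _ Φ cl hY.isClosed cl hZ.isClosed hag him,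
      ConHomeo.glue_right _ Φ cl hY.isClosed cl hZ.isClosed hag him⟩
  have t3 : Θ.toFun '' (D₁ ∪ D₂) = D ∪ D₁ := by
    rw [image_union, (t1.mono d1).image_eq, (t2.mono dy).image_eq, image_id', hΦ', union_comm]
  have co : ∀ x ∈ C₂, x ∉ D ∪ D₁ → x ∈ O := fun x hx hx' => hO ▸ ⟨Or.inr hx, by
    rintro (h | h)
    · exact hx' (Or.inl (hD.1 (gc x h hx)))
    · exact hx' (Or.inl h)⟩
  have iz : Inside (D₁ ∪ D₂) ∪ O ⊆ X ∪ C₂ :=
    union_subset ((hX ▸ subset_union_right : _ ⊆ X).trans subset_union_left) oZ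
  have fin : C₁ \ (D ∪ D₁) ⊆ X ∪ C₂ := by
    refine ((h₁.isConnected_int.isPreconnected.subset_or_subset (j1.union oO)
      (j6.isClosed.union h₂.isClosed).isOpen_compl (disjoint_compl_right.mono_left iz)
      fun x hx => ?_).resolve_right fun h => ?_).trans iz
    · by_cases h : x ∈ X ∪ C₂
      · rcases h with h | h
        · rcases hX ▸ h with (h' | h') | h'
          · exact absurd (Or.inr h') hx.2
          · exact Or.inl (Or.inr (co x (d2c h') hx.2))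
          · exact Or.inl (Or.inl h')
        · exact Or.inl (Or.inr (co x h hx.2))
      · exact Or.inr h
    · obtain ⟨x, hx⟩ := hD₂.diff_nonempty
      exact h (hin hx) (Or.inr (d2c hx.1))
  have all : C₁ ⊆ (X \ O) ∪ (Y ∪ C₂) := fun x hx => by
    by_cases h : x ∈ O
    · exact Or.inr (hO ▸ h).1
    by_cases h' : x ∈ D ∪ D₁
    · exact h'.elim (fun h'' => Or.inr (Or.inr (dc h''))) fun h'' => Or.inl (d1 h'')
    · exact (fin ⟨hx, h'⟩).elim (fun h'' => Or.inl ⟨h'', h⟩) fun h'' => Or.inr (Or.inr h'')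
  have hb := h₁.image Θ.symm all
  rw [← t3, image_image, ConHomeo.symm_toFun, image_congr (g := fun x => x) fun x hx =>
    Θ.left_inv (union_subset_union d1 dy hx), image_id'] at hb
  exact ⟨_, hb⟩

theorem space (hE : EXT3) (hU : UNI3) {D D₁ D₂ J : Set E3} (hD : ConBall 2 D J)
    (hD₁ : ConBall 2 D₁ J) (hD₂ : ConBall 2 D₂ J) (i1 : D ∩ D₁ = J) (i2 : D ∩ D₂ = J)
    (i12 : D₁ ∩ D₂ = J) (b₁ : Bnd (D ∪ D₁)) (b₂ : Bnd (D ∪ D₂)) : Bnd (D₁ ∪ D₂) := by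
  obtain ⟨C₁, h₁⟩ := b₁
  obtain ⟨C₂, h₂⟩ := b₂
  rcases sideB h₁ hD₂.isConnected_int.isPreconnected (disjoint_left.2 fun x hx h =>
    hx.2 (h.elim (fun h' => i2 ▸ ⟨h', hx.1⟩) fun h' => i12 ▸ ⟨h', hx.1⟩)) with o2 | o2
  · exact nested hE hU hD hD₁ hD₂ i1 i2 i12 h₁ h₂ o2
  rcases sideB h₂ hD₁.isConnected_int.isPreconnected (disjoint_left.2 fun x hx h =>
    hx.2 (h.elim (fun h' => i1 ▸ ⟨h', hx.1⟩) fun h' => i12 ▸ ⟨hx.1, h'⟩)) with o1 | o1
  · rw [union_comm]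
    exact nested hE hU hD hD₂ hD₁ i2 i1 (inter_comm D₁ D₂ ▸ i12) h₂ h₁ o1
  have k : C₁ \ (D ∪ D₁) ⊆ C₂ᶜ := by
    refine (sideB h₂ h₁.isConnected_int.isPreconnected (disjoint_left.2 fun x hx h => ?_)).resolve_left
      fun h => ?_
    · rcases h with h | h
      · exact hx.2 (Or.inl h)
      · exact o2 ⟨h, fun h' => hx.2 (Or.inl (hD.1 h'))⟩ hx.1
    · obtain ⟨x, hx⟩ := hD₁.diff_nonempty
      exact o1 hx (closure_minimal (h.trans sdiff_subset) h₂.isClosed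
        (h₁.subset_closure_int (h₁.1 (Or.inr hx.1))))
  refine ⟨_, hU h₁ h₂ hD hD₁ hD₂ i1 i2 (Subset.antisymm (fun x hx => ?_)
    (subset_inter (subset_union_left.trans h₁.1) (subset_union_left.trans h₂.1)))⟩
  by_contra h
  refine k ⟨hx.1, fun h' => ?_⟩ hx.2
  rcases h' with h' | h'
  · exact h h'
  · exact o1 ⟨h', fun h'' => h (hD.1 h'')⟩ hx.2

end Surg

theorem surg_of (hE : EXT3) (hU : UNI3) : SURG := by
  intro E _ _ _ D D₁ D₂ J hr hD hD₁ hD₂ i1 i2 i12 ⟨C₁, h₁⟩ ⟨C₂, h₂⟩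
  let L : E ≃L[ℝ] E3 := ContinuousLinearEquiv.ofFinrankEq (by simpa using hr)
  let Φ := A12.ofCLE L
  have hi : ∀ A B : Set E, Φ.toFun '' A ∩ Φ.toFun '' B = Φ.toFun '' (A ∩ B) := fun A B =>
    (image_inter L.injective).symm
  obtain ⟨C, hC⟩ := Surg.space hE hU (hD.image Φ (subset_univ _)) (hD₁.image Φ (subset_univ _))
    (hD₂.image Φ (subset_univ _)) (by rw [hi, i1]) (by rw [hi, i2]) (by rw [hi, i12])
    ⟨_, image_union _ D D₁ ▸ h₁.image Φ (subset_univ _)⟩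
    ⟨_, image_union _ D D₂ ▸ h₂.image Φ (subset_univ _)⟩
  have hb := hC.image Φ.symm (subset_univ _)
  rw [← image_union, image_image, ConHomeo.symm_toFun,
    image_congr (g := fun x => x) fun x _ => Φ.left_inv (mem_univ x), image_id'] at hb
  exact ⟨_, hb⟩

end P073.Ax
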