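import Vale.Agent.P073Z.Ax.Sk
import Vale.Agent.P073Z.SCH3F
import Vale.Agent.P073Z.A3
import Vale.Agent.P073Z.A12
import Vale.Agent.P073Z.T0.Conen

/-!
# The PL Alexander theorem: pushing a sphere off its cone points
-/

open Set Metric Topology Filter

namespace P073.Ax

variable {E : Type} [NormedAddCommGroup E] [NormedSpace ℝ E]

theorem star_int {N : Set E} {v x : E} (hc : Convex ℝ N) (hv : N ∈ 𝓝 v) (hx : x ∈ N) {s : ℝ}
    (hs : s ∈ Ico (0 : ℝ) 1) : v + s • (x - v) ∈ interior N := by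
  have h := hc.add_smul_sub_mem_interior hx (mem_interior_iff_mem_nhds.2 hv)
    (t := 1 - s) ⟨by linarith [hs.2], by linarith [hs.1]⟩
  rwa [show x + (1 - s) • (v - x) = v + s • (x - v) by module] at h

theorem ray_frontier {N : Set E} {v : E} (hK : IsCompact N) (hc : Convex ℝ N) (hv : N ∈ 𝓝 v) :
    RayBaseAt v (frontier N) := by
  have hs := hK.isClosed.frontier_subset
  refine rayBaseAt_iff.2 ⟨hK.of_isClosed_subset isClosed_frontier hs,
    fun h => h.2 (mem_interior_iff_mem_nhds.2 hv), fun x hx s h0 h1 => ?_⟩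
  rcases lt_trichotomy s 1 with h | h | h
  · exact absurd (star_int hc hv (hs hx) ⟨h0.le, h⟩) h1.2
  · exact h
  · have h2 := star_int hc hv (hs h1) ⟨(inv_pos.2 h0).le, inv_lt_one_of_one_lt₀ h⟩
    rw [add_sub_cancel_left, smul_smul, inv_mul_cancel₀ h0.ne', one_smul, add_sub_cancel] at h2
    exact absurd h2 hx.2

theorem swap_step [FiniteDimensional ℝ E] (hS : SURG) {S N : Set E} {v : E}
    (hE : Module.finrank ℝ E = 3) (h : ConSphere 2 S) (hvS : v ∈ S) (hK : IsCompact N)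
    (hc : Convex ℝ N) (hL : LocCone N) (hv : N ∈ 𝓝 v)
    (hz : ∀ z ∈ N, ∀ t ∈ Ioc (0 : ℝ) 1, (z ∈ S ↔ v + t • (z - v) ∈ S)) :
    ∃ S', ConSphere 2 S' ∧ S' \ N = S \ N ∧ S' ∩ N ⊆ frontier N ∧ (Bnd S' → Bnd S) := by
  obtain ⟨φ⟩ := id h
  have hSc : IsCompact S := φ.symm.isCompact_right (isCompact_sphere _ _)
  have hSL : LocCone S := LocCone.of_conHomeo (isCompact_sphere _ _) (locCone_sphere_pi _) φ.symm
  have hvi : v ∈ interior N := mem_interior_iff_mem_nhds.2 hv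
  have hst : ∀ x ∈ S ∩ N, ∀ s ∈ Ico (0 : ℝ) 1, v + s • (x - v) ∈ S := fun x hx s hs => by
    rcases hs.1.eq_or_lt with rfl | h0
    · rwa [zero_smul, add_zero]
    · exact (hz x hx.2 s ⟨h0, hs.2.le⟩).1 hx.1
  have hD := T0.conen_of starb h.plMan inter_subset_left (hSc.inter_right hK.isClosed)
    (hSL.inter hL) ⟨hvS, interior_subset hvi⟩ fun x hx s hs =>
      ⟨⟨hst x hx s hs, interior_subset (star_int hc hv hx.2 hs)⟩, inter_mem_nhdsWithin _
        (mem_interior_iff_mem_nhds.1 (star_int hc hv hx.2 hs))⟩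
  generalize hB : {x ∈ S ∩ N | S ∩ N ∉ 𝓝[S] x} = B at hD
  have hBf : B ⊆ frontier N := by
    rw [← hB]
    exact fun x hx => ⟨subset_closure hx.1.2, fun hi =>
      hx.2 (inter_mem_nhdsWithin _ (mem_interior_iff_mem_nhds.1 hi))⟩
  have hR := ray_frontier hK hc hv
  have hJ : IsCircle B := mod_thm.2.2.1.2 hD.conSphere
  have hC := (coneb (B := B) (hR.mono hD.isCompact_bdry hBf)).1 hD.conSphere
  have hCK : coneSetAt v B = S ∩ N := by
    obtain ⟨Δ, -, -, hu, -⟩ := cid hD hJ hD.1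
    rw [hu _ Subset.rfl hD]
    refine hu _ ?_ hC
    rintro _ ⟨s, hs, x, hx, rfl⟩
    rcases hs.2.eq_or_lt with rfl | h1
    · rw [one_smul, add_sub_cancel]
      exact hD.1 hx
    · exact ⟨hst x (hD.1 hx) s ⟨hs.1, h1⟩,
        interior_subset (star_int hc hv (hD.1 hx).2 ⟨hs.1, h1⟩)⟩
  have hSB : frontier N ∩ S ⊆ B := by
    rintro x ⟨h1, h2⟩
    obtain ⟨s, hs, b, hb, rfl⟩ : x ∈ coneSetAt v B :=
      hCK ▸ ⟨h2, hK.isClosed.frontier_subset h1⟩
    rcases hs.2.eq_or_lt with rfl | h3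
    · rwa [one_smul, add_sub_cancel]
    · exact absurd (star_int hc hv (hD.1 hb).2 ⟨hs.1, h3⟩) h1.2
  obtain ⟨Δ, Δ', hΔ, -, hU, -⟩ :=
    cos_thm.1 (A3.body cmp_thm 3 E N hE hK hc hL ⟨v, hvi⟩).conSphere hJ hBf
  have hΔf : Δ ⊆ frontier N := hU ▸ subset_union_left
  obtain ⟨D, hD₁, hDU, hDI⟩ : ∃ D, ConBall 2 D B ∧ D ∪ S ∩ N = S ∧ D ∩ (S ∩ N) = B := by
    obtain ⟨Δ₁, Δ₂, h1, h2, h3, h4, h5⟩ := cos_thm.1 h hJ (hD.1.trans inter_subset_left)
    rcases h5 _ inter_subset_left hD with e | e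
    · exact ⟨Δ₂, h2, by rw [e, union_comm, h3], by rw [e, inter_comm, h4]⟩
    · exact ⟨Δ₁, h1, by rw [e, h3], by rw [e, h4]⟩
  have hDS : D ⊆ S := hDU ▸ subset_union_left
  have i1 : ∀ {X : Set E}, ConBall 2 X B → X ⊆ S → Δ ∩ X = B := fun hX hs =>
    Subset.antisymm ((inter_subset_inter hΔf hs).trans hSB) (subset_inter hΔ.1 hX.1)
  refine ⟨Δ ∪ D, cos_thm.2.1 hΔ hD₁ (i1 hD₁ hDS), ?_, ?_, fun hb => ?_⟩
  · refine Subset.antisymm (fun x hx => ⟨hx.1.elim (fun h1 => absurd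
      (hK.isClosed.frontier_subset (hΔf h1)) hx.2) (@hDS x), hx.2⟩) fun x hx => ⟨?_, hx.2⟩
    exact Or.inr ((hDU.ge hx.1).resolve_right fun h1 => hx.2 h1.2)
  · rintro x ⟨h1 | h1, h2⟩
    exacts [hΔf h1, hBf (hDI.le ⟨h1, hDS h1, h2⟩)]
  · rw [← hDU]
    exact hS hE hΔ hD₁ hD (i1 hD₁ hDS) (i1 hD inter_subset_left) hDI hb
      ⟨_, hCK ▸ (coneb (hR.mono hΔ.isCompact hΔf)).2.1 hΔ⟩

theorem swap_of (hS : SURG) : SWAP := by
  intro E _ _ _ S V N hE h hV hd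
  classical
  induction V using Finset.induction_on generalizing S with
  | empty => exact ⟨S, h, by simp, id⟩
  | insert w V hw ih =>
    obtain ⟨h1, h2, h3, h4, h5, h6⟩ := hV w (Finset.mem_insert_self w V)
    obtain ⟨S₁, g1, g2, g3, g4⟩ := swap_step hS hE h h1 h2 h3 h4 h5 h6
    have e : ∀ v ∈ V, ∀ z ∈ N v, (z ∈ S₁ ↔ z ∈ S) := fun v hv z hz => by
      have h7 : z ∉ N w := disjoint_left.1 (hd v (Finset.mem_insert_of_mem hv) w
        (Finset.mem_insert_self w V) fun e => hw (e ▸ hv)) hz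
      exact ⟨fun h => (g2.le ⟨h, h7⟩).1, fun h => (g2.ge ⟨h, h7⟩).1⟩
    obtain ⟨S', k1, k2, k3⟩ := ih g1 (fun v hv => by
      obtain ⟨a1, a2, a3, a4, a5, a6⟩ := hV v (Finset.mem_insert_of_mem hv)
      have a7 := mem_of_mem_nhds a5
      refine ⟨(e v hv v a7).2 a1, a2, a3, a4, a5, fun z hz t ht => ?_⟩
      rw [e v hv z hz, e v hv _ (a3.add_smul_sub_mem a7 hz ⟨ht.1.le, ht.2⟩)]
      exact a6 z hz t ht) fun v hv u hu =>
        hd v (Finset.mem_insert_of_mem hv) u (Finset.mem_insert_of_mem hu)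
    refine ⟨S', k1, fun x hx => ?_, g4 ∘ k3⟩
    simp only [Finset.set_biUnion_insert]
    rcases k2 hx with h7 | h7
    · by_cases h8 : x ∈ N w
      · exact Or.inr (Or.inl (g3 ⟨h7.1, h8⟩))
      · exact Or.inl ⟨(g2.le ⟨h7.1, h8⟩).1, fun h9 => h9.elim h8 h7.2⟩
    · exact Or.inr (Or.inr h7)

end P073.Ax
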