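import Vale.Agent.P073Z.Ax.Small
import Vale.Agent.P073Z.CosFin
import Vale.Agent.P073Z.A14
import Vale.Agent.P073Z.TriU

/-!
# The PL Alexander theorem: generic levels, finite pieces, towers
-/

open Set Metric Topology Filter

namespace P073.Ax

theorem p4s : P4S := by
  intro E _ _ _ S g a b hS hg hab
  by_cases h : ∃ m ∈ S, (a + b) / 2 < g m
  · obtain ⟨m, hm, hgm⟩ := h
    obtain ⟨C, B, hC, -, hCS, -⟩ := hS.plMan.small hm
      ((hg.1 m hm).preimage_mem_nhdsWithin (Ioi_mem_nhds hgm))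
    obtain ⟨D, hD, hU⟩ : ∃ D, ConBall 2 D B ∧ D ∪ C = S := by
      obtain ⟨Δ₁, Δ₂, h1, h2, h3, -, h4⟩ :=
        cos_thm.1 hS hC.isCircleD (hC.1.trans (hCS.trans inter_subset_left))
      rcases h4 C (hCS.trans inter_subset_left) hC with rfl | rfl
      · exact ⟨Δ₂, h2, (union_comm _ _).trans h3⟩
      · exact ⟨Δ₁, h1, h3⟩
    have hDS : D ⊆ S := hU ▸ subset_union_left
    obtain ⟨T, hT, H⟩ := p4 hD ⟨hg.1.mono hDS, hg.2.mono hD.conicalSet hDS⟩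
    obtain ⟨t, ht, htT⟩ :=
      ((Ioo_infinite (show a < (a + b) / 2 by linarith)).sdiff hT).nonempty
    obtain ⟨⟨𝒞, h1, h2, h3⟩, -⟩ := H t htT
    have hlt : ∀ x ∈ C, g x ≠ t := fun x hx => (ht.2.trans (hCS hx).2).ne'
    refine ⟨t, ⟨ht.1, by linarith [ht.2]⟩, 𝒞, ?_, fun c hc => ?_, h2⟩
    · rw [← h1, ← hU]
      exact Subset.antisymm (fun x hx => ⟨hx.1.resolve_right fun h => hlt x h hx.2, hx.2⟩)
        fun x hx => ⟨Or.inl hx.1, hx.2⟩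
    · refine (h3 c hc).elim And.left fun ⟨p, q, _, h4⟩ => ?_
      have hp : p ∈ c ∩ B := h4 ▸ mem_insert p {q}
      have h5 : p ∈ {x ∈ D | g x = t} := h1 ▸ mem_biUnion hc hp.1
      exact (hlt p (hC.1 hp.2) h5.2).elim
  · push Not at h
    refine ⟨((a + b) / 2 + b) / 2, ⟨by linarith, by linarith⟩, ∅, ?_, by simp, by simp⟩
    simp only [Finset.notMem_empty, iUnion_of_empty, iUnion_empty]
    exact eq_empty_of_forall_notMem fun x hx => by linarith [h x hx.1, hx.2]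

theorem finc : FINC := by
  classical
  intro E _ _ _ X G hX hG hL
  obtain ⟨K, -, hK, -, H⟩ := tri (F := ℝ) (U := univ) (fun _ : Unit => G) (fun _ _ => 0)
    (r := fun _ => 1) isOpen_univ ⟨continuousOn_const, fun _ _ => one_pos⟩
    (fun x _ => ⟨univ, univ_mem, toFinite _⟩) fun _ => ⟨subset_univ _,
      closedIn_of_isClosed hG.isClosed _, fun x _ => hL x, continuousOn_const,
      conicalOn_const _ hL.conicalSet⟩
  have hf := K.finite_meet hX (hK ▸ subset_univ _)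
  refine ⟨(hf.toFinset.filter fun i => Disjoint (K.ocell i) G).image K.ocell, fun U hU => ?_,
    fun x hx => ?_⟩
  · obtain ⟨i, hi, rfl⟩ := Finset.mem_image.1 hU
    exact ⟨(K.ball i).isConnected_int.isPreconnected, (Finset.mem_filter.1 hi).2⟩
  · obtain ⟨i, hi⟩ := K.exists_ocell (x := x) (hK ▸ mem_univ x)
    refine mem_biUnion (Finset.mem_image_of_mem _ (Finset.mem_filter.2
      ⟨hf.mem_toFinset.2 ⟨x, hi.1, hx.1⟩, ?_⟩)) hi
    exact ((H ()).1.subset_or_disjoint i).resolve_left fun h => hx.2 (h hi.1)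

/-- the gap of a finite set around a point -/
theorem exists_gap (F : Finset ℝ) {x lo hi : ℝ} (hx : x ∉ F) (h1 : lo < x) (h2 : x < hi) :
    ∃ a b, a < x ∧ x < b ∧ (a = lo ∨ a ∈ F) ∧ (b = hi ∨ b ∈ F) ∧
      Disjoint (Ioo a b) (F : Set ℝ) := by
  classical
  obtain ⟨a, ha, hA⟩ := ((insert lo F).filter (· < x)).exists_max_image id
    ⟨lo, Finset.mem_filter.2 ⟨Finset.mem_insert_self _ _, h1⟩⟩
  obtain ⟨b, hb, hB⟩ := ((insert hi F).filter (x < ·)).exists_min_image id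
    ⟨hi, Finset.mem_filter.2 ⟨Finset.mem_insert_self _ _, h2⟩⟩
  rw [Finset.mem_filter, Finset.mem_insert] at ha hb
  refine ⟨a, b, ha.2, hb.2, ha.1, hb.1, Set.disjoint_left.2 fun y hy hF => ?_⟩
  rcases lt_trichotomy y x with h | h | h
  · exact hy.1.not_ge (hA y (Finset.mem_filter.2 ⟨Finset.mem_insert_of_mem hF, h⟩))
  · exact hx (h ▸ hF)
  · exact hy.2.not_ge (hB y (Finset.mem_filter.2 ⟨Finset.mem_insert_of_mem hF, h⟩))

theorem circle_fst {c : Set P} {t : ℝ} (h : IsCircle c) (ht : ∀ z ∈ c, z.2 = t) :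
    IsCircle (Prod.fst '' c) :=
  h.elim fun φ => ⟨φ.trans (ConHomeo.ofCompact h.isCompact Prod.fst continuous_fst.continuousOn
    (fun z hz w hw e => Prod.ext e ((ht z hz).trans (ht w hw).symm))
    (conicalOn_linear (LinearMap.fst ℝ E2 ℝ) h.locCone.conicalSet) rfl)⟩

theorem tower : TOWER := by
  classical
  intro S F hS hV
  have hc := (sph_conn hS).2
  have hg : PLOn (fun z : P => z.2) S := ⟨continuous_snd.continuousOn,
    conicalOn_linear (LinearMap.snd ℝ E2 ℝ) (hS.elim fun φ => φ.conicalSet_left)⟩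
  choose! t ht 𝒞 h1 h2 h3 using fun (p : ℝ × ℝ) (h : p.1 < p.2) => p4s hS hg h
  let Q : Finset (ℝ × ℝ) :=
    (F ×ˢ F).filter fun p => p.1 < p.2 ∧ Disjoint (Ioo p.1 p.2) (F : Set ℝ)
  have hQ : ∀ p, p ∈ Q ↔ (p.1 ∈ F ∧ p.2 ∈ F) ∧ p.1 < p.2 ∧ Disjoint (Ioo p.1 p.2) (F : Set ℝ) :=
    fun p => by rw [Finset.mem_filter, Finset.mem_product]
  let s : Finset ((ℝ × ℝ) × Set P) := Q.biUnion fun p => (𝒞 p).image fun c => (p, c)
  have hs : ∀ i, i ∈ s ↔ i.1 ∈ Q ∧ i.2 ∈ 𝒞 i.1 := fun i => by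
    simp only [s, Finset.mem_biUnion, Finset.mem_image]
    exact ⟨by rintro ⟨p, hp, c, hc, rfl⟩; exact ⟨hp, hc⟩, fun h => ⟨_, h.1, _, h.2, rfl⟩⟩
  have hl : ∀ p ∈ Q, ∀ c ∈ 𝒞 p, ∀ z ∈ c, z ∈ S ∧ z.2 = t p := fun p hp c hc z hz =>
    (h1 p ((hQ p).1 hp).2.1).ge (mem_biUnion hc hz)
  refine ⟨_, fun i => Prod.fst '' i.2, fun i => i.1.1, fun i => i.1.2, s, fun i hi => ?_,
    fun i hi => ((hQ _).1 ((hs i).1 hi).1).2.1, fun i hi => ((hQ _).1 ((hs i).1 hi).1).1.1,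
    fun i hi => ((hQ _).1 ((hs i).1 hi).1).1.2, fun i hi => ((hQ _).1 ((hs i).1 hi).1).2.2,
    ?_, fun z hz => ⟨fun hzS => ?_, ?_⟩⟩
  · obtain ⟨k1, k2⟩ := (hs i).1 hi
    exact circle_fst (h2 _ ((hQ _).1 k1).2.1 _ k2) fun z hz => (hl _ k1 _ k2 z hz).2
  · rintro ⟨⟨a, b⟩, c⟩ hi ⟨⟨a', b'⟩, c'⟩ hj hne (rfl : a = a')
    obtain ⟨k1, k2⟩ := (hs _).1 hi
    obtain ⟨k3, k4⟩ := (hs _).1 hj
    obtain ⟨⟨-, m1⟩, m2, m3⟩ := (hQ _).1 k1
    obtain ⟨⟨-, m4⟩, m5, m6⟩ := (hQ _).1 k3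
    obtain rfl : b = b' := le_antisymm
      (not_lt.1 fun h => Set.disjoint_left.1 m3 ⟨m5, h⟩ m4)
      (not_lt.1 fun h => Set.disjoint_left.1 m6 ⟨m2, h⟩ m1)
    refine Set.disjoint_left.2 ?_
    rintro _ ⟨z, hz, rfl⟩ ⟨w, hw, e⟩
    obtain rfl : w = z := Prod.ext e ((hl _ k3 _ k4 w hw).2.trans (hl _ k1 _ k2 z hz).2.symm)
    exact Set.disjoint_left.1 (h3 _ m2 c k2 c' k4 fun h => hne (by rw [h])) hz hw
  · obtain ⟨R, hR⟩ := hc.isBounded.exists_norm_le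
    have hR' : ∀ w ∈ S, -R ≤ w.2 ∧ w.2 ≤ R := fun w hw =>
      abs_le.1 ((norm_snd_le w).trans (hR w hw))
    obtain ⟨r1, r2⟩ := hR' z hzS
    obtain ⟨a, b, ha, hb, k1, k2, k3⟩ := exists_gap F hz (lo := -R - 2) (hi := R + 2)
      (by linarith) (by linarith)
    have hv := fun s' hs' => hV a b k3 z.1 z.2 ⟨ha, hb⟩ s' hs' hzS
    have k4 : a ∈ F := k1.resolve_left fun e => by
      have := (hR' _ (hv (-R - 1) ⟨by linarith, by linarith⟩)).1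
      linarith
    have k5 : b ∈ F := k2.resolve_left fun e => by
      have := (hR' _ (hv (R + 1) ⟨by linarith, by linarith⟩)).2
      linarith
    obtain ⟨c, hc1, hc2⟩ := mem_iUnion₂.1 ((h1 (a, b) (ha.trans hb)).le
      (⟨hv _ (ht (a, b) (ha.trans hb)), rfl⟩ : (z.1, t (a, b)) ∈ {x ∈ S | x.2 = t (a, b)}))
    exact ⟨((a, b), c), (hs _).2 ⟨(hQ _).2 ⟨⟨k4, k5⟩, ha.trans hb, k3⟩, hc1⟩, ⟨_, hc2, rfl⟩,
      ha, hb⟩
  · rintro ⟨i, hi, ⟨w, hw, e⟩, hz'⟩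
    obtain ⟨k1, k2⟩ := (hs i).1 hi
    obtain ⟨-, m2, m3⟩ := (hQ _).1 k1
    obtain ⟨k3, k4⟩ := hl _ k1 _ k2 w hw
    exact hV _ _ m3 z.1 w.2 (k4 ▸ ht _ m2) z.2 hz' (e ▸ k3)

theorem tower_of (_ : SIS) : TOWER := tower

end P073.Ax
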