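import Vale.Agent.P073Z.Ax.Sk
import Vale.Agent.P073Z.A3
import Vale.Agent.P073Z.DISC2.Cos

/-!
# Extension from a boundary disc; the union of two balls along a disc
-/

open Set Metric Topology Filter

namespace P073.Ax

theorem ext3 : EXT3 := by
  intro E F _ _ _ _ C D D₁ J C' D' D₁' J' φ hC hD h1 hi hC' hD' h1' hi' hφ
  obtain ⟨ψ, e1, -⟩ := h1.exists_extend h1' ((φ.restr hD.conicalSet_bdry hD.1).cast rfl hφ)
  have ag : EqOn φ.toFun ψ.toFun (D ∩ D₁) := by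
    rw [hi]
    exact fun x hx => (e1 hx).symm
  have im : D' ∩ D₁' ⊆ φ.toFun '' (D ∩ D₁) := by rw [hi, hi', hφ]
  obtain ⟨Φ, e2, -⟩ := hC.exists_extend hC'
    (φ.glue ψ hD.isClosed h1.isClosed hD'.isClosed h1'.isClosed ag im)
  refine ⟨Φ, fun x hx => (e2 (Or.inl hx)).trans (ConHomeo.glue_left _ _ _ _ _ _ _ _ hx), ?_⟩
  rw [← ψ.image_eq]
  exact image_congr fun x hx => (e2 (Or.inr hx)).trans (ConHomeo.glue_right _ _ _ _ _ _ _ _ hx)

namespace UniAux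

/-- the graph of `c * (1 - ‖x‖)` over the square -/
def gr (c : ℝ) : Set ((Fin 2 → ℝ) × ℝ) := {q | q.1 ∈ closedBall 0 1 ∧ q.2 = c * (1 - ‖q.1‖)}

/-- the region between two graphs -/
def rg (c d : ℝ) : Set ((Fin 2 → ℝ) × ℝ) :=
  {q | q.1 ∈ closedBall 0 1 ∧ c * (1 - ‖q.1‖) ≤ q.2 ∧ q.2 ≤ d * (1 - ‖q.1‖)}

/-- the common boundary of the graphs -/
def eq : Set ((Fin 2 → ℝ) × ℝ) := {q | ‖q.1‖ = 1 ∧ q.2 = 0}

theorem pl (c : ℝ) : PLOn (fun x : Fin 2 → ℝ => c * (1 - ‖x‖)) (closedBall 0 1) :=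
  have hD := (Sh.conBall_unit 2).conicalSet
  ⟨by fun_prop, ((conicalOn_const _ hD).sub
    (Sh.conicalOn_norm_pi.mono hD (subset_univ _))).const_smul c⟩

theorem gr_ball (c : ℝ) : ConBall 2 (gr c) eq := by
  have h := (Sh.conBall_unit 2).image (graphHomeo (pl c)) subset_rfl
  rw [ConHomeo.image_eq] at h
  convert h using 1
  · rfl
  ext q
  constructor
  · exact fun hq => ⟨q.1, mem_sphere_zero_iff_norm.2 hq.1, Prod.ext rfl (by
      change c * (1 - ‖q.1‖) = _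
      rw [hq.1, hq.2, sub_self, mul_zero])⟩
  · rintro ⟨x, hx, rfl⟩
    refine ⟨mem_sphere_zero_iff_norm.1 hx, ?_⟩
    change c * (1 - ‖x‖) = _
    rw [mem_sphere_zero_iff_norm.1 hx, sub_self, mul_zero]

theorem gr_inter {c d : ℝ} (h : c ≠ d) : gr c ∩ gr d = eq := by
  refine Subset.antisymm (fun q hq => ?_) (subset_inter (gr_ball c).1 (gr_ball d).1)
  have h1 : 1 - ‖q.1‖ = 0 := (mul_eq_mul_right_iff.1 (hq.1.2.symm.trans hq.2.2)).resolve_left h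
  exact ⟨by linarith, by rw [hq.1.2, h1, mul_zero]⟩

theorem rg_ball {c d : ℝ} (h : c < d) : ConBall 3 (rg c d) (gr c ∪ gr d) := by
  have h1 := twog (Sh.conBall_unit 2) (pl c) (pl d)
    (fun x hx => by simp only [mem_sphere_zero_iff_norm.1 hx, sub_self, mul_zero])
    (fun x hx => mul_lt_mul_of_pos_right h (sub_pos.2 (lt_of_le_of_ne
      (mem_closedBall_zero_iff.1 hx.1) fun h => hx.2 (mem_sphere_zero_iff_norm.2 h))))
  convert h1 using 1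
  · rfl
  ext q
  simp only [gr, mem_union, mem_ofPred_eq, and_or_left]

theorem rg_union : rg (-1) 0 ∪ rg 0 1 = rg (-1) 1 := by
  ext q
  constructor
  · rintro (⟨h1, h2, h3⟩ | ⟨h1, h2, h3⟩) <;> have := mem_closedBall_zero_iff.1 h1 <;>
      exact ⟨h1, by linarith, by linarith⟩
  · rintro ⟨h1, h2, h3⟩
    rcases le_total q.2 0 with h | h
    exacts [Or.inl ⟨h1, h2, by linarith⟩, Or.inr ⟨h1, by linarith, h3⟩]

end UniAux

open UniAux

theorem uni3 : UNI3 := by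
  intro E _ _ C₁ C₂ D D₁ D₂ J hC₁ hC₂ hD h1 h2 i1 i2 hi
  obtain ⟨α⟩ := hD.conSphere
  obtain ⟨β⟩ := (gr_ball 0).conSphere
  obtain ⟨φ, -, hφ⟩ := hD.exists_extend (gr_ball 0) (α.trans β.symm)
  have b1 := rg_ball (show (-1 : ℝ) < 0 by norm_num)
  have b2 := rg_ball (show (0 : ℝ) < 1 by norm_num)
  obtain ⟨Φ₁, e1, f1⟩ := ext3 φ hC₁ hD h1 i1 (union_comm _ _ ▸ b1) (gr_ball 0) (gr_ball (-1))
    (gr_inter (by norm_num)) hφ
  obtain ⟨Φ₂, e2, f2⟩ := ext3 φ hC₂ hD h2 i2 b2 (gr_ball 0) (gr_ball 1) (gr_inter (by norm_num)) hφ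
  have ag : EqOn Φ₁.toFun Φ₂.toFun (C₁ ∩ C₂) := by
    rw [hi]
    exact fun x hx => (e1 hx).trans (e2 hx).symm
  have im : rg (-1) 0 ∩ rg 0 1 ⊆ Φ₁.toFun '' (C₁ ∩ C₂) := by
    rw [hi, e1.image_eq, φ.image_eq]
    exact fun q hq => ⟨hq.1.1, le_antisymm hq.1.2.2 hq.2.2.1⟩
  have s1 : D₁ ⊆ C₁ := subset_union_right.trans hC₁.1
  have s2 : D₂ ⊆ C₂ := subset_union_right.trans hC₂.1
  refine A3.PH.ball ⟨union_subset_union s1 s2, (Φ₁.glue Φ₂ hC₁.isClosed hC₂.isClosed b1.isClosed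
    b2.isClosed ag im).cast rfl rg_union, ?_⟩ (rg_ball (show (-1 : ℝ) < 1 by norm_num))
  rw [ConHomeo.cast_toFun, image_union, ((ConHomeo.glue_left _ _ _ _ _ _ _ _).mono s1).image_eq,
    ((ConHomeo.glue_right _ _ _ _ _ _ _ _).mono s2).image_eq, f1, f2]

end P073.Ax
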