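import Vale.Agent.P073Z.Ax.Sk
import Vale.Agent.P073Z.A2.PL

/-!
# The PL Alexander theorem: from local to global vertical position
-/

open Set Metric Topology Filter

namespace P073.Ax

/-- `X` can be made vertical above the level `a` -/
def Abv (X : Set P) (a : ℝ) : Prop :=
  ∃ (Ψ : ConHomeo (univ : Set P) (univ : Set P)) (F : Finset ℝ),
    (∀ z : P, z.2 ≤ a → Ψ.toFun z = z) ∧
    ∀ c d : ℝ, a ≤ c → Disjoint (Ioo c d) (F : Set ℝ) → Vert (Ψ.toFun ⁻¹' X) c d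

theorem gap_insert {F : Finset ℝ} {b c d : ℝ}
    (h : Disjoint (Ioo c d) ((insert b F : Finset ℝ) : Set ℝ)) :
    (d ≤ b ∨ b ≤ c) ∧ Disjoint (Ioo c d) (F : Set ℝ) := by
  refine ⟨?_, h.mono_right (Finset.coe_subset.2 (Finset.subset_insert _ _))⟩
  by_contra hn
  rw [not_or, not_le, not_le] at hn
  exact disjoint_left.1 h ⟨hn.2, hn.1⟩ (Finset.mem_coe.2 (Finset.mem_insert_self _ _))

theorem Abv.step {X : Set P} {a b : ℝ} (hb : Abv X b) (hab : a ≤ b) (hL : Loc X a b) :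
    Abv X a := by
  obtain ⟨Ψ, F, h1, h2⟩ := hb
  obtain ⟨Φ, k1, k2, k3, k4⟩ := hL
  refine ⟨Φ.trans Ψ, insert b F, fun z hz => ?_, fun c d hc hd x s hs s' hs' hx => ?_⟩
  · rw [ConHomeo.trans_toFun, Function.comp_apply, k2 z hz, h1 z (hz.trans hab)]
  obtain ⟨h3, h4⟩ := gap_insert hd
  change Ψ.toFun (Φ.toFun (x, s)) ∈ X at hx
  change Ψ.toFun (Φ.toFun (x, s')) ∈ X
  rcases h3 with h3 | h3
  · rw [h1 _ ((k1 _).trans_le (hs.2.le.trans h3))] at hx
    rw [h1 _ ((k1 _).trans_le (hs'.2.le.trans h3))]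
    exact k4 x s ⟨hc.trans_lt hs.1, hs.2.trans_le h3⟩ s' ⟨hc.trans_lt hs'.1, hs'.2.trans_le h3⟩ hx
  · have e : Φ.toFun (x, s) = ((Φ.toFun (x, s)).1, s) := Prod.ext rfl (k1 _)
    have e' : Φ.toFun (x, s') = ((Φ.toFun (x, s)).1, s') :=
      Prod.ext (k3 x s' s (h3.trans hs'.1.le) (h3.trans hs.1.le)) (k1 _)
    rw [e] at hx
    rw [e']
    exact h2 c d h3 h4 _ s hs s' hs' hx

theorem vglob_of (hV : VLOC) : VGLOB := by
  intro X hX hI
  obtain ⟨R, hR⟩ := hX.isBounded.exists_norm_le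
  have hb : ∀ x s, (x, s) ∈ X → |s| ≤ R := fun x s h => (norm_snd_le (x, s)).trans (hR _ h)
  have h0 : Abv X R := ⟨ConHomeo.refl A2.conicalSet_univ, ∅, fun _ _ => rfl,
    fun c d hc _ x s hs _ _ hx => absurd ((le_abs_self s).trans (hb x s hx))
      (hc.trans_lt hs.1).not_ge⟩
  have h1 : ¬ BddBelow {a | Abv X a} := by
    intro hbd
    obtain ⟨ε, hε, h2⟩ := (hV (sInf {a | Abv X a}) hX).1 fun x => hI 1 _
    obtain ⟨ε', hε', h3⟩ := (hV (sInf {a | Abv X a}) hX).2 fun x => hI (-1) _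
    obtain ⟨b, hb1, hb2⟩ := exists_lt_of_csInf_lt (s := {a | Abv X a}) ⟨R, h0⟩
      (lt_add_of_pos_right _ hε)
    have h4 := csInf_le hbd hb1
    have h5 : Abv X (sInf {a | Abv X a}) := by
      rcases h4.eq_or_lt with h | h
      · rw [h]; exact hb1
      · have := h2 (b - sInf {a | Abv X a}) ⟨sub_pos.2 h, by linarith⟩
        rw [add_sub_cancel] at this
        exact Abv.step hb1 h4 this
    have h6 := csInf_le hbd (h5.step (by linarith) (h3 ε' ⟨hε', le_rfl⟩))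
    linarith
  obtain ⟨a, ⟨Ψ, F, k1, k2⟩, ha⟩ := not_bddBelow_iff.1 h1 (-R)
  refine ⟨Ψ, insert a F, fun c d hd => ?_⟩
  obtain ⟨h3 | h3, h4⟩ := gap_insert hd
  · intro x s hs _ _ hx
    rw [mem_preimage, k1 _ (hs.2.le.trans h3)] at hx
    have := neg_le_of_abs_le (hb x s hx)
    linarith [hs.2]
  · exact k2 c d h3 h4

end P073.Ax
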