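import Vale.Agent.P073Z.Ax.Sk
import Vale.Agent.P073Z.PUSH.A

/-!
# The PL Alexander theorem: local vertical position
-/

open Set Metric Topology Filter

namespace P073.Ax

open A2

/-- level preserving maps which are close to the identity on each level -/
theorem fib_homeo {φ : P → E2} (hp : PLOn φ univ)
    (hl : ∀ (s : ℝ) (x x' : E2), ‖φ (x, s) - φ (x', s)‖ ≤ 1 / 2 * ‖x - x'‖) :
    ∃ Φ : ConHomeo (univ : Set P) (univ : Set P), ∀ z, Φ.toFun z = (z.1 + φ z, z.2) := by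
  have h1 : ∀ s : ℝ, ∃ g : E2 → E2, ∀ y, g y + φ (g y, s) = y := by
    intro s
    obtain ⟨Φ, hΦ⟩ := nearid (φ := fun x : E2 => φ (x, s))
      (pl_comp_univ hp (pl_prodMk (pl_id conicalSet_univ) (pl_const s conicalSet_univ))).2
      (LipschitzWith.of_dist_le_mul fun x y => by simpa [dist_eq_norm] using hl s x y)
    exact ⟨Φ.invFun, fun y => (hΦ _).symm.trans (Φ.right_inv (mem_univ y))⟩
  choose g hg using h1
  have h2 : ∀ s x x', ‖x - x'‖ ≤ 2 * ‖x + φ (x, s) - (x' + φ (x', s))‖ := fun s x x' => by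
    have a1 := norm_sub_le (x + φ (x, s) - (x' + φ (x', s))) (φ (x, s) - φ (x', s))
    rw [show x + φ (x, s) - (x' + φ (x', s)) - (φ (x, s) - φ (x', s)) = x - x' by abel] at a1
    linarith [hl s x x']
  have hc : Continuous φ := continuousOn_univ.1 hp.1
  have h3 : Continuous fun z : P => g z.2 z.1 := by
    refine continuous_iff_continuousAt.2 fun z => tendsto_iff_norm_sub_tendsto_zero.2 ?_
    refine squeeze_zero (fun _ => norm_nonneg _)
      (g := fun w : P => 2 * ‖w.1 - (g z.2 z.1 + φ (g z.2 z.1, w.2))‖) (fun w => ?_) ?_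
    · have := h2 w.2 (g w.2 w.1) (g z.2 z.1)
      rwa [hg] at this
    · have : Continuous fun w : P => 2 * ‖w.1 - (g z.2 z.1 + φ (g z.2 z.1, w.2))‖ := by fun_prop
      simpa [hg] using this.tendsto z
  have h4 := pl_prodMk (pl_add (pl_fst conicalSet_univ) hp) (pl_snd conicalSet_univ)
  refine ⟨⟨fun z => (z.1 + φ z, z.2), fun z => (g z.2 z.1, z.2), mapsTo_univ _ _, mapsTo_univ _ _,
    fun z _ => Prod.ext ?_ rfl, fun z _ => Prod.ext (hg _ _) rfl, h4.1,
    (h3.prodMk continuous_snd).continuousOn, h4.2⟩, fun _ => rfl⟩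
  have := h2 z.2 (g z.2 (z.1 + φ z)) z.1
  rw [hg, sub_self, norm_zero, mul_zero] at this
  exact sub_eq_zero.1 (norm_le_zero_iff.1 this)

theorem exists_small (n : ℕ) {f : ℕ → ℝ} (hf : ∀ k, 0 < f k) :
    ∃ ρ > (0:ℝ), ρ ≤ 1 ∧ ∀ k < n, ρ ≤ f k := by
  induction n with
  | zero => exact ⟨1, one_pos, le_rfl, fun k hk => absurd hk (Nat.not_lt_zero k)⟩
  | succ n ih =>
    obtain ⟨ρ, h0, h1, h2⟩ := ih
    refine ⟨min ρ (f n), lt_min h0 (hf n), (min_le_left _ _).trans h1, fun k hk => ?_⟩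
    rcases (Nat.lt_succ_iff.1 hk).eq_or_lt with rfl | h
    exacts [min_le_right _ _, (min_le_left _ _).trans (h2 k h)]

theorem norm_comb_le {n k : ℕ} (hk : k ≤ n) (v : ℕ → E2) {c : ℕ → ℝ} {ε : ℝ} (hε : 0 ≤ ε)
    (hc : ∀ j < k, |c j| ≤ ε) :
    ‖∑ j ∈ Finset.range k, c j • v j‖ ≤ ε * (1 + ∑ j ∈ Finset.range n, ‖v j‖) := by
  refine (norm_sum_le _ _).trans ((Finset.sum_le_sum (g := fun j => ε * ‖v j‖) fun j hj => ?_).trans
    ?_)
  · rw [norm_smul]
    exact mul_le_mul_of_nonneg_right (hc j (Finset.mem_range.1 hj)) (norm_nonneg _)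
  · rw [← Finset.mul_sum]
    refine mul_le_mul_of_nonneg_left (le_trans ?_ (le_add_of_nonneg_left zero_le_one)) hε
    exact Finset.sum_le_sum_of_subset_of_nonneg (Finset.range_mono hk) fun _ _ _ => norm_nonneg _

/-- partial sums of tents -/
noncomputable def tS (δ : ℝ) (e : ℕ → E2) (r : ℕ → ℝ) (k : ℕ) (x : E2) : ℝ :=
  ∑ j ∈ Finset.range k, δ * max (r j - ‖x - e j‖) 0

section

variable {δ : ℝ} (e : ℕ → E2) (r : ℕ → ℝ)

theorem tS_pl (k : ℕ) : PLOn (fun z : P => tS δ e r k z.1) univ :=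
  pl_sum _ conicalSet_univ fun _ _ => pl_mul δ (pl_max (pl_sub (pl_const _ conicalSet_univ)
    (pl_comp_univ (pl_norm_pi 2) (pl_sub (pl_fst conicalSet_univ) (pl_const _ conicalSet_univ))))
    (pl_const _ conicalSet_univ))

theorem tS_nonneg (hδ : 0 ≤ δ) (k : ℕ) (x : E2) : 0 ≤ tS δ e r k x :=
  Finset.sum_nonneg fun _ _ => mul_nonneg hδ (le_max_right _ _)

theorem tS_lip (hδ : 0 ≤ δ) (k : ℕ) (x x' : E2) :
    |tS δ e r k x - tS δ e r k x'| ≤ k * (δ * ‖x - x'‖) := by
  rw [tS, tS, ← Finset.sum_sub_distrib]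
  refine (Finset.abs_sum_le_sum_abs _ _).trans ((Finset.sum_le_sum
    (g := fun _ => δ * ‖x - x'‖) fun j _ => ?_).trans (by simp))
  rw [← mul_sub, abs_mul, abs_of_nonneg hδ]
  refine mul_le_mul_of_nonneg_left ((abs_max_sub_max_le_abs _ _ _).trans ?_) hδ
  have := abs_norm_sub_norm_le (x' - e j) (x - e j)
  rw [show x' - e j - (x - e j) = -(x - x') by abel, norm_neg] at this
  rwa [show r j - ‖x - e j‖ - (r j - ‖x' - e j‖) = ‖x' - e j‖ - ‖x - e j‖ by ring]

end

theorem abs_min_sub (h a b : ℝ) : |min h a - min h b| ≤ |a - b| := by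
  simpa using abs_min_sub_min_le_max h a h b

theorem abs_min_le {h a b ε : ℝ} (h0 : 0 < h) (h1 : h < ε) (ha : 0 ≤ a) (hb : 0 ≤ b) :
    |min h a - min h b| ≤ ε := by
  have := min_le_left h a
  have := min_le_left h b
  have := le_min h0.le ha
  have := le_min h0.le hb
  rw [abs_le]
  constructor <;> linarith

theorem core {X : Set P} {σ τ : ℝ} (hσ : σ = 1 ∨ σ = -1) (hX : IsCompact X)
    (hI : ∀ x : E2, Inv σ X (x, τ)) : ∃ ε₀ > (0:ℝ), ∃ φ : P → E2, PLOn φ univ ∧
    (∀ (s : ℝ) (x x' : E2), ‖φ (x, s) - φ (x', s)‖ ≤ 1 / 2 * ‖x - x'‖) ∧ (∀ x, φ (x, 0) = 0) ∧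
    ∀ x, ∀ h ∈ Ioo 0 ε₀, ∀ h' ∈ Ioo 0 ε₀,
      (x + φ (x, h), τ + σ * h) ∈ X → (x + φ (x, h'), τ + σ * h') ∈ X := by
  choose r hr u H using hI
  obtain ⟨R, hR⟩ := hX.isBounded.exists_norm_le
  obtain ⟨t, -, ht⟩ := (isCompact_closedBall (0 : E2) (R + 1)).elim_nhds_subcover
    (fun x => ball x (r x / 4)) fun x _ => ball_mem_nhds x (by linarith [hr x])
  obtain ⟨n, e, he⟩ : ∃ (n : ℕ) (e : ℕ → E2), ∀ y ∈ t, ∃ k < n, e k = y :=
    ⟨t.toList.length, fun k => t.toList.getD k 0, fun y hy => by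
      obtain ⟨k, hk, rfl⟩ := List.getElem_of_mem (Finset.mem_toList.2 hy)
      exact ⟨k, hk, List.getD_eq_getElem _ _ hk⟩⟩
  obtain ⟨ρ, ρ0, ρ1, hρ⟩ := exists_small n (f := fun k => r (e k) / 4) fun k => by
    linarith [hr (e k)]
  have σ1 : |σ| = 1 := by rcases hσ with rfl | rfl <;> simp
  have σ2 : σ * σ = 1 := by rcases hσ with rfl | rfl <;> simp
  obtain ⟨v, hv⟩ : ∃ v : ℕ → E2, ∀ k, v k = σ • u (e k) := ⟨_, fun _ => rfl⟩
  obtain ⟨U, hU⟩ : ∃ U, U = 1 + ∑ j ∈ Finset.range n, ‖v j‖ := ⟨_, rfl⟩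
  have U1 : 1 ≤ U := hU ▸ le_add_of_nonneg_right (Finset.sum_nonneg fun _ _ => norm_nonneg _)
  obtain ⟨δ, δ0, hδ⟩ : ∃ δ > (0:ℝ), (n + 1) * δ * U = 1 / 4 :=
    ⟨1 / (4 * (n + 1) * U), by positivity, by field_simp⟩
  have δ1 : δ * U ≤ 1 / 4 := by
    have : 0 ≤ n * δ * U := by positivity
    linarith
  obtain ⟨S, hS⟩ : ∃ S, S = tS δ e fun k => r (e k) / 2 := ⟨_, rfl⟩
  have S0 : ∀ x, S 0 x = 0 := fun x => by rw [hS, tS, Finset.sum_range_zero]
  have Sp : ∀ k x, 0 ≤ S k x := hS ▸ tS_nonneg _ _ δ0.le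
  refine ⟨δ * ρ, mul_pos δ0 ρ0, fun z => ∑ k ∈ Finset.range n,
    (min z.2 (S (k + 1) z.1) - min z.2 (S k z.1)) • v k, ?_, fun s x x' => ?_, fun x => ?_,
    fun x h hh h' hh' hx => ?_⟩
  · refine pl_sum _ conicalSet_univ fun k _ => pl_comp_univ
      (pl_clm (ContinuousLinearMap.toSpanSingleton ℝ (v k)) conicalSet_univ) ?_
    rw [hS]
    exact pl_sub (pl_min (pl_snd conicalSet_univ) (tS_pl _ _ _))
      (pl_min (pl_snd conicalSet_univ) (tS_pl _ _ _))
  · simp only [← Finset.sum_sub_distrib, ← sub_smul]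
    have a0 : 0 ≤ δ * ‖x - x'‖ := by positivity
    refine (norm_comb_le le_rfl v (ε := 2 * ((n + 1) * (δ * ‖x - x'‖))) (by positivity)
      fun k hk => ?_).trans (le_of_eq ?_)
    · have a1 := (abs_min_sub s _ _).trans (tS_lip e (fun k => r (e k) / 2) δ0.le (k + 1) x x')
      have a2 := (abs_min_sub s _ _).trans (tS_lip e (fun k => r (e k) / 2) δ0.le k x x')
      have a3 : (k : ℝ) * (δ * ‖x - x'‖) ≤ n * (δ * ‖x - x'‖) :=
        mul_le_mul_of_nonneg_right (Nat.cast_le.2 hk.le) a0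
      rw [← hS, abs_le] at a1 a2
      push_cast at a1
      rw [abs_le]
      constructor <;> linarith [a1.1, a1.2, a2.1, a2.2]
    · rw [← hU]
      linear_combination 2 * ‖x - x'‖ * hδ
  · exact Finset.sum_eq_zero fun k _ => by
      rw [min_eq_left (Sp _ _), min_eq_left (Sp _ _), sub_self, zero_smul]
  have ε0 : 0 ≤ δ * ρ := by positivity
  have ε1 : δ * ρ * U ≤ ρ / 4 := by nlinarith
  have ε2 : δ * ρ ≤ ρ / 4 := by nlinarith
  have b1 := (norm_comb_le le_rfl v ε0 fun k _ =>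
    abs_min_le hh.1 hh.2 (Sp (k + 1) x) (Sp k x)).trans (hU ▸ ε1)
  simp only at hx ⊢
  generalize hW : ∑ k ∈ Finset.range n, (min h (S (k + 1) x) - min h (S k x)) • v k = W at hx b1
  have b2 : δ * ρ ≤ S n x := by
    have a1 : ‖x‖ ≤ R + 1 := by
      have a2 := (norm_fst_le _).trans (hR _ hx)
      have a3 := norm_sub_le (x + W) W
      rw [add_sub_cancel_right] at a3
      linarith
    obtain ⟨y, hy, a2⟩ := mem_iUnion₂.1 (ht (mem_closedBall_zero_iff.2 a1))
    obtain ⟨k, hk, rfl⟩ := he y hy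
    rw [mem_ball_iff_norm] at a2
    rw [hS]
    refine le_trans ?_ (Finset.single_le_sum (f := fun j => δ * max (r (e j) / 2 - ‖x - e j‖) 0)
      (fun _ _ => mul_nonneg δ0.le (le_max_right _ _)) (Finset.mem_range.2 hk))
    exact mul_le_mul_of_nonneg_left (le_max_of_le_left (by linarith [hρ k hk])) δ0.le
  obtain ⟨d, hd⟩ : ∃ d : ℕ → ℝ, ∀ k, d k = min h' (S (k + 1) x) - min h' (S k x) -
    (min h (S (k + 1) x) - min h (S k x)) := ⟨_, fun _ => rfl⟩
  have b3 : ∀ k, k ≤ n → ‖∑ j ∈ Finset.range k, d j • v j‖ ≤ ρ / 2 := fun k hk => by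
    refine (norm_comb_le hk v (ε := 2 * (δ * ρ)) (by positivity) fun j _ => ?_).trans ?_
    · rw [hd, two_mul]
      exact (abs_sub _ _).trans (add_le_add (abs_min_le hh'.1 hh'.2 (Sp _ x) (Sp _ x))
        (abs_min_le hh.1 hh.2 (Sp _ x) (Sp _ x)))
    · rw [← hU]
      linarith
  have b4 : ∀ k, h + min h' (S k x) - min h (S k x) ∈ Ioo 0 (δ * ρ) := fun k => by
    have := hh.1
    have := hh.2
    have := hh'.1
    have := hh'.2
    rw [mem_Ioo, min_def, min_def]
    split_ifs <;> constructor <;> linarith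
  have b5 : ∀ k, k < n → ‖x - e k‖ < r (e k) / 2 → ∀ j, j ≤ n →
      ((x + W + ∑ i ∈ Finset.range j, d i • v i,
        τ + σ * (h + min h' (S j x) - min h (S j x))) : P) ∈ ball (e k, τ) (r (e k)) := by
    intro k hk hx j hj
    rw [mem_ball_iff_norm, Prod.norm_def, max_lt_iff]
    have a1 := hρ k hk
    constructor
    · have := norm_add₃_le (a := x - e k) (b := W) (c := ∑ i ∈ Finset.range j, d i • v i)
      rw [show x - e k + W + ∑ i ∈ Finset.range j, d i • v i =
        x + W + ∑ i ∈ Finset.range j, d i • v i - e k by abel] at this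
      exact this.trans_lt (by linarith [b3 j hj])
    · rw [Prod.snd_sub, add_sub_cancel_left, Real.norm_eq_abs, abs_mul, σ1, one_mul,
        abs_of_pos (b4 j).1]
      linarith [(b4 j).2]
  have key : ∀ k, k ≤ n → ((x + W + ∑ i ∈ Finset.range k, d i • v i,
      τ + σ * (h + min h' (S k x) - min h (S k x))) : P) ∈ X := by
    intro k
    induction k with
    | zero =>
      intro _
      simpa [S0, hh.1.le, hh'.1.le] using hx
    | succ k ih =>
      intro hk
      replace ih := ih (Nat.le_of_succ_le hk)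
      by_cases a1 : ‖x - e k‖ < r (e k) / 2
      · have a2 : ((x + W + ∑ i ∈ Finset.range k, d i • v i,
            τ + σ * (h + min h' (S k x) - min h (S k x))) : P) + (σ * d k) • ((u (e k), 1) : P) =
            (x + W + ∑ i ∈ Finset.range (k + 1), d i • v i,
              τ + σ * (h + min h' (S (k + 1) x) - min h (S (k + 1) x))) := by
          refine Prod.ext ?_ ?_
          · simp only [Prod.fst_add, Prod.smul_fst, Finset.sum_range_succ, hv k, smul_smul,
              mul_comm σ, add_assoc]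
          · simp only [Prod.snd_add, Prod.smul_snd, smul_eq_mul, hd k]
            ring
        rw [← a2]
        refine H (e k) _ (b5 k hk a1 k (Nat.le_of_succ_le hk)) _ (a2 ▸ b5 k hk a1 _ hk) ?_ ?_ ih
        · have := (b4 k).1
          simp only [add_sub_cancel_left, ← mul_assoc, σ2, one_mul, this]
        · have := (b4 (k + 1)).1
          simp only [hd k]
          linear_combination (exp := 1) this -
            (h + min h' (S (k + 1) x) - min h (S (k + 1) x)) * σ2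
      · have a2 : S (k + 1) x = S k x := by
          rw [hS, tS, Finset.sum_range_succ, max_eq_right (by linarith), mul_zero, add_zero, tS]
        rwa [Finset.sum_range_succ, hd k, a2, sub_self, sub_self, sub_self, zero_smul, add_zero]
  have := key n le_rfl
  rw [min_eq_left (hh.2.le.trans b2), min_eq_left (hh'.2.le.trans b2), add_sub_cancel_left,
    add_assoc, ← hW, ← Finset.sum_add_distrib] at this
  simpa only [hd, ← add_smul, add_sub_cancel] using this

theorem vloc : VLOC := by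
  intro X τ hX
  have hc : ∀ σ ε : ℝ, PLOn (fun z : P => (z.1, max 0 (min ε (σ * (z.2 - τ))))) univ :=
    fun σ ε => pl_prodMk (pl_fst conicalSet_univ) (pl_max (pl_const _ conicalSet_univ)
      (pl_min (pl_const _ conicalSet_univ)
        (pl_mul σ (pl_sub (pl_snd conicalSet_univ) (pl_const _ conicalSet_univ)))))
  constructor
  · intro hI
    obtain ⟨ε₀, h0, φ, h1, h2, h3, h4⟩ := core (Or.inl rfl) hX hI
    refine ⟨ε₀, h0, fun ε hε => ?_⟩
    obtain ⟨Φ, hΦ⟩ := fib_homeo (pl_comp_univ h1 (hc 1 ε)) fun s x x' => h2 _ x x'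
    have e : ∀ x, ∀ s ∈ Ioo τ (τ + ε), Φ.toFun (x, s) = (x + φ (x, s - τ), τ + 1 * (s - τ)) ∧
        s - τ ∈ Ioo 0 ε₀ := fun x s hs => by
      have := hs.1
      have := hs.2
      refine ⟨?_, by linarith, by linarith [hε.2]⟩
      rw [hΦ, one_mul, min_eq_right (by linarith), max_eq_right (by linarith), add_sub_cancel]
    refine ⟨Φ, fun z => by rw [hΦ], fun z hz => ?_, fun x s s' hs hs' => ?_,
      fun x s hs s' hs' hx => ?_⟩
    · rw [hΦ, max_eq_left (min_le_of_right_le (by linarith)), h3, add_zero]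
    · simp only [hΦ]
      rw [min_eq_left (by linarith), min_eq_left (by linarith)]
    · rw [mem_preimage, (e x _ ‹_›).1] at hx ⊢
      exact h4 x _ (e x s hs).2 _ (e x s' hs').2 hx
  · intro hI
    obtain ⟨ε₀, h0, φ, h1, h2, h3, h4⟩ := core (Or.inr rfl) hX hI
    refine ⟨ε₀, h0, fun ε hε => ?_⟩
    obtain ⟨Φ, hΦ⟩ := fib_homeo (pl_comp_univ h1 (hc (-1) ε)) fun s x x' => h2 _ x x'
    obtain ⟨G, hG⟩ := fib_homeo (pl_comp_univ h1 (pl_prodMk (pl_fst conicalSet_univ)
      (pl_const ε conicalSet_univ))) fun s x x' => h2 _ x x'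
    have g1 : ∀ x s s', G.invFun (x, s') = ((G.invFun (x, s)).1, s') := fun x s s' => by
      have a1 := G.right_inv (mem_univ (x, s))
      rw [hG] at a1
      have a2 := G.left_inv (mem_univ ((G.invFun (x, s)).1, s'))
      rw [hG] at a2
      rw [← a2]
      exact congrArg (fun y => G.invFun (y, s')) (congrArg Prod.fst a1).symm
    have e : ∀ x, ∀ s ∈ Ioo (τ - ε) τ, Φ.toFun (x, s) = (x + φ (x, τ - s), τ + -1 * (τ - s)) ∧
        τ - s ∈ Ioo 0 ε₀ := fun x s hs => by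
      have := hs.1
      have := hs.2
      refine ⟨?_, by linarith, by linarith [hε.2]⟩
      rw [hΦ, neg_one_mul, neg_one_mul, neg_sub, min_eq_right (by linarith),
        max_eq_right (by linarith), neg_sub, add_sub_cancel]
    refine ⟨G.symm.trans Φ, fun z => ?_, fun z hz => ?_, fun x s s' hs hs' => ?_,
      fun x s hs s' hs' hx => ?_⟩
    · change (Φ.toFun (G.invFun (z.1, z.2))).2 = z.2
      rw [g1 _ z.2, hΦ]
    · change Φ.toFun (G.invFun (z.1, z.2)) = z
      have a1 := G.right_inv (mem_univ (z.1, z.2))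
      rw [g1 _ z.2, hG] at a1
      rw [g1 _ z.2, hΦ, min_eq_left (by linarith), max_eq_right hε.1.le]
      exact a1
    · change (Φ.toFun (G.invFun (x, s))).1 = (Φ.toFun (G.invFun (x, s'))).1
      rw [g1 x 0 s, g1 x 0 s', hΦ, hΦ, max_eq_left (min_le_of_right_le (by linarith)),
        max_eq_left (min_le_of_right_le (by linarith))]
    · change Φ.toFun (G.invFun (x, s)) ∈ X at hx
      change Φ.toFun (G.invFun (x, s')) ∈ X
      rw [g1 x 0, (e _ _ ‹_›).1] at hx ⊢
      exact h4 _ _ (e x s hs).2 _ (e x s' hs').2 hx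

end P073.Ax
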