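import Vale.Agent.P073Z.Ax.Main
import Vale.Agent.P073Z.Ax.Uni
import Vale.Agent.P073Z.Ax.Surg
import Vale.Agent.P073Z.Ax.Swap
import Vale.Agent.P073Z.Ax.Small
import Vale.Agent.P073Z.Ax.Book
import Vale.Agent.P073Z.Ax.Tower
import Vale.Agent.P073Z.Ax.Strat
import Vale.Agent.P073Z.Ax.Planes
import Vale.Agent.P073Z.Ax.Vloc
import Vale.Agent.P073Z.Ax.Vglob
import Vale.Agent.P073Z.Ax.Rcut
import Vale.Agent.P073Z.Ax.Rfind

/-!
# The PL Alexander theorem: a PL two-sphere in three-space bounds a PL ball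
-/

namespace P073.Ax

theorem surg : SURG := surg_of ext3 uni3

theorem swap : SWAP := swap_of surg

theorem alex : ALEX :=
  alex_of surg swap sis strat planes book (vglob_of vloc) tower rcut (rfind finc)

end P073.Ax
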