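import Vale.Agent.P073Z.Sk1

/-!
# The PL Alexander theorem: statements of the steps
-/

open Set Metric Topology Filter

namespace P073.Ax

/-- plane times height -/
abbrev P := E2 × ℝ

/-- `S` is the boundary of a PL three-ball -/
def Bnd {E : Type} [NormedAddCommGroup E] [NormedSpace ℝ E] (S : Set E) : Prop :=
  ∃ C, ConBall 3 C S

/-- the theorem -/
def ALEX : Prop := ∀ {S : Set E3}, ConSphere 2 S → ConBall 3 (S ∪ Inside S) S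

/-! ### balls -/

/-- extension from a boundary disc -/
def EXT3 : Prop := ∀ {E F : Type} [NormedAddCommGroup E] [NormedSpace ℝ E]
  [NormedAddCommGroup F] [NormedSpace ℝ F] {C D D₁ J : Set E} {C' D' D₁' J' : Set F}
  (φ : ConHomeo D D'), ConBall 3 C (D ∪ D₁) → ConBall 2 D J → ConBall 2 D₁ J → D ∩ D₁ = J →
  ConBall 3 C' (D' ∪ D₁') → ConBall 2 D' J' → ConBall 2 D₁' J' → D' ∩ D₁' = J' →
  φ.toFun '' J = J' →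
  ∃ Φ : ConHomeo C C', EqOn Φ.toFun φ.toFun D ∧ Φ.toFun '' D₁ = D₁'

/-- the union of two balls along a disc -/
def UNI3 : Prop := ∀ {E : Type} [NormedAddCommGroup E] [NormedSpace ℝ E]
  {C₁ C₂ D D₁ D₂ J : Set E}, ConBall 3 C₁ (D ∪ D₁) → ConBall 3 C₂ (D ∪ D₂) → ConBall 2 D J →
  ConBall 2 D₁ J → ConBall 2 D₂ J → D ∩ D₁ = J → D ∩ D₂ = J → C₁ ∩ C₂ = D →
  ConBall 3 (C₁ ∪ C₂) (D₁ ∪ D₂)

/-- three discs with a common boundary -/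
def SURG : Prop := ∀ {E : Type} [NormedAddCommGroup E] [NormedSpace ℝ E] [FiniteDimensional ℝ E]
  {D D₁ D₂ J : Set E}, Module.finrank ℝ E = 3 → ConBall 2 D J → ConBall 2 D₁ J → ConBall 2 D₂ J →
  D ∩ D₁ = J → D ∩ D₂ = J → D₁ ∩ D₂ = J → Bnd (D ∪ D₁) → Bnd (D ∪ D₂) → Bnd (D₁ ∪ D₂)

/-- pushing a sphere off finitely many cone points -/
def SWAP : Prop := ∀ {E : Type} [NormedAddCommGroup E] [NormedSpace ℝ E] [FiniteDimensional ℝ E]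
  {S : Set E} (V : Finset E) (N : E → Set E), Module.finrank ℝ E = 3 → ConSphere 2 S →
  (∀ v ∈ V, v ∈ S ∧ IsCompact (N v) ∧ Convex ℝ (N v) ∧ LocCone (N v) ∧ N v ∈ 𝓝 v ∧
    ∀ z ∈ N v, ∀ t ∈ Ioc (0:ℝ) 1, (z ∈ S ↔ v + t • (z - v) ∈ S)) →
  (∀ v ∈ V, ∀ w ∈ V, v ≠ w → Disjoint (N v) (N w)) →
  ∃ S', ConSphere 2 S' ∧ S' ⊆ (S \ ⋃ v ∈ V, N v) ∪ ⋃ v ∈ V, frontier (N v) ∧ (Bnd S' → Bnd S)

/-! ### small lemmas -/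

/-- a manifold which lies locally in another one of the same dimension is open in it -/
def FLATOPEN : Prop := ∀ {E : Type} [NormedAddCommGroup E] [NormedSpace ℝ E] {n : ℕ}
  {M X : Set E} {z : E}, PLMan n M → PLMan n X → z ∈ M → (∀ᶠ w in 𝓝 z, w ∈ M → w ∈ X) →
  ∀ᶠ w in 𝓝 z, w ∈ X → w ∈ M

/-- planes are manifolds -/
def PLANE : Prop := ∀ {E : Type} [NormedAddCommGroup E] [NormedSpace ℝ E] [FiniteDimensional ℝ E]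
  (A : E2 →ᵃ[ℝ] E), Function.Injective A → PLMan 2 (range A)

/-- a sphere in a sphere -/
def SIS : Prop := ∀ {E : Type} [NormedAddCommGroup E] [NormedSpace ℝ E] {S S' : Set E},
  ConSphere 2 S → IsConnected S ∧ IsCompact S ∧ (ConSphere 2 S' → S ⊆ S' → S = S')

/-- a sphere does not lie in finitely many levels -/
def NOFLAT : Prop := ∀ {S : Set P} (F : Finset ℝ), ConSphere 2 S → ∃ z ∈ S, z.2 ∉ F

/-- generic levels on a sphere -/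
def P4S : Prop := ∀ {E : Type} [NormedAddCommGroup E] [NormedSpace ℝ E] [FiniteDimensional ℝ E]
  {S : Set E} {g : E → ℝ} {a b : ℝ}, ConSphere 2 S → PLOn g S → a < b →
  ∃ t ∈ Ioo a b, ∃ 𝒞 : Finset (Set E), {x ∈ S | g x = t} = ⋃ c ∈ 𝒞, c ∧
    (∀ c ∈ 𝒞, IsCircle c) ∧ ∀ c ∈ 𝒞, ∀ c' ∈ 𝒞, c ≠ c' → Disjoint c c'

/-- finitely many preconnected pieces -/
def FINC : Prop := ∀ {E : Type} [NormedAddCommGroup E] [NormedSpace ℝ E] [FiniteDimensional ℝ E]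
  {X G : Set E}, IsCompact X → IsCompact G → LocCone G → ∃ 𝒰 : Finset (Set E),
  (∀ U ∈ 𝒰, IsPreconnected U ∧ Disjoint U G) ∧ X \ G ⊆ ⋃ U ∈ 𝒰, U

/-! ### general position -/

/-- vertices `V`, edge directions `Dir`, face forms `Lam` of the surface `S` -/
structure Strat {E : Type} [NormedAddCommGroup E] [NormedSpace ℝ E] (S : Set E) (V Dir : Finset E)
    (Lam : Finset (E →ₗ[ℝ] ℝ)) : Prop where
  vert : ∀ v ∈ V, v ∈ S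
  dir : ∀ d ∈ Dir, d ≠ 0
  lam : ∀ l ∈ Lam, l ≠ 0 ∧ ∃ d ∈ Dir, l d = 0
  off : ∀ y ∈ S, y ∉ V → ∃ d ∈ Dir, ∀ᶠ z in 𝓝 y, z ∈ S → ∃ l ∈ Lam, l d = 0 ∧ l (z - y) = 0
  near : ∀ v ∈ V, ∀ᶠ y in 𝓝 v, y ∈ S → (∃ d ∈ Dir, ∃ t : ℝ, y - v = t • d) ∨
    ∃ l ∈ Lam, l (y - v) = 0 ∧ ∀ᶠ z in 𝓝 y, z ∈ S → l (z - y) = 0

def STRAT : Prop := ∀ {S : Set E3}, ConSphere 2 S → ∃ (L : E3 ≃L[ℝ] P) (V Dir : Finset P)
  (Lam : Finset (P →ₗ[ℝ] ℝ)), Strat (L '' S) V Dir Lam ∧ ∀ d ∈ Dir, d.2 ≠ 0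

/-- near `y` and on the side `σ`, the set `X` lies in finitely many planes through `y` with a common
direction `(u, 1)` -/
def Book (σ : ℝ) (X : Set P) (y : P) : Prop :=
  ∃ (u : E2) (Lam : Finset (E2 →ₗ[ℝ] ℝ)), (∀ l ∈ Lam, l ≠ 0) ∧ ∀ᶠ z in 𝓝 y, z ∈ X →
    0 < σ * (z.2 - y.2) → ∃ l ∈ Lam, l (z.1 - y.1 - (z.2 - y.2) • u) = 0

def PLANES : Prop := ∀ {S : Set P} {V Dir : Finset P} {Lam : Finset (P →ₗ[ℝ] ℝ)}, IsCompact S →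
  LocCone S → Strat S V Dir Lam → (∀ d ∈ Dir, d.2 ≠ 0) → ∃ N : P → Set P,
  (∀ v ∈ V, v ∈ S ∧ IsCompact (N v) ∧ Convex ℝ (N v) ∧ LocCone (N v) ∧ N v ∈ 𝓝 v ∧
    ∀ z ∈ N v, ∀ t ∈ Ioc (0:ℝ) 1, (z ∈ S ↔ v + t • (z - v) ∈ S)) ∧
  (∀ v ∈ V, ∀ w ∈ V, v ≠ w → Disjoint (N v) (N w)) ∧
  ∀ (σ : ℝ) (y : P), Book σ ((S \ ⋃ v ∈ V, N v) ∪ ⋃ v ∈ V, frontier (N v)) y

/-- near `y` and on the side `σ`, the set `X` is invariant in a direction `(u, 1)` -/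
def Inv (σ : ℝ) (X : Set P) (y : P) : Prop :=
  ∃ r > (0:ℝ), ∃ u : E2, ∀ z ∈ ball y r, ∀ s : ℝ, z + s • ((u, 1) : P) ∈ ball y r →
    0 < σ * (z.2 - y.2) → 0 < σ * (z.2 + s - y.2) → z ∈ X → z + s • ((u, 1) : P) ∈ X

def BOOK : Prop := ∀ {M : Set P} {σ : ℝ} {y : P}, IsClosed M → PLMan 2 M → Book σ M y → Inv σ M y

/-! ### making the sphere vertical -/

/-- `X` is vertical between the levels `a` and `b` -/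
def Vert (X : Set P) (a b : ℝ) : Prop :=
  ∀ x : E2, ∀ s ∈ Ioo a b, ∀ s' ∈ Ioo a b, (x, s) ∈ X → (x, s') ∈ X

/-- `X` can be made vertical between the levels `a` and `b` -/
def Loc (X : Set P) (a b : ℝ) : Prop :=
  ∃ Φ : ConHomeo (univ : Set P) (univ : Set P), (∀ z, (Φ.toFun z).2 = z.2) ∧
    (∀ z : P, z.2 ≤ a → Φ.toFun z = z) ∧
    (∀ (x : E2) (s s' : ℝ), b ≤ s → b ≤ s' → (Φ.toFun (x, s)).1 = (Φ.toFun (x, s')).1) ∧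
    Vert (Φ.toFun ⁻¹' X) a b

def VLOC : Prop := ∀ {X : Set P} (τ : ℝ), IsCompact X →
  ((∀ x : E2, Inv 1 X (x, τ)) → ∃ ε₀ > (0:ℝ), ∀ ε ∈ Ioc 0 ε₀, Loc X τ (τ + ε)) ∧
  ((∀ x : E2, Inv (-1) X (x, τ)) → ∃ ε₀ > (0:ℝ), ∀ ε ∈ Ioc 0 ε₀, Loc X (τ - ε) τ)

def VGLOB : Prop := ∀ {X : Set P}, IsCompact X → (∀ σ y, Inv σ X y) →
  ∃ (Ψ : ConHomeo (univ : Set P) (univ : Set P)) (F : Finset ℝ),
    ∀ a b : ℝ, Disjoint (Ioo a b) (F : Set ℝ) → Vert (Ψ.toFun ⁻¹' X) a b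

/-! ### vertical spheres -/

/-- off the levels `F`, the set `S` is the union of the towers `J i × (a i, b i)` -/
structure Tow {ι : Type} (F : Finset ℝ) (J : ι → Set E2) (a b : ι → ℝ) (s : Finset ι)
    (S : Set P) : Prop where
  circ : ∀ i ∈ s, IsCircle (J i)
  lt : ∀ i ∈ s, a i < b i
  left : ∀ i ∈ s, a i ∈ F
  right : ∀ i ∈ s, b i ∈ F
  gap : ∀ i ∈ s, Disjoint (Ioo (a i) (b i)) (F : Set ℝ)
  disj : ∀ i ∈ s, ∀ j ∈ s, i ≠ j → a i = a j → Disjoint (J i) (J j)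
  mem : ∀ z : P, z.2 ∉ F → (z ∈ S ↔ ∃ i ∈ s, z.1 ∈ J i ∧ z.2 ∈ Ioo (a i) (b i))

def TOWER : Prop := ∀ {S : Set P} {F : Finset ℝ}, ConSphere 2 S →
  (∀ a b : ℝ, Disjoint (Ioo a b) (F : Set ℝ) → Vert S a b) →
  ∃ (ι : Type) (J : ι → Set E2) (a b : ι → ℝ) (s : Finset ι), Tow F J a b s S

/-- cutting along a horizontal disc -/
def RCUT : Prop := ∀ {ι : Type} {F : Finset ℝ} {J : ι → Set E2} {a b : ι → ℝ} {s : Finset ι}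
  {S : Set P} {D C : Set E2} {τ : ℝ}, ConSphere 2 S → Tow F J a b s S → ConBall 2 D C → τ ∈ F →
  (D ×ˢ {τ}) ∩ S = C ×ˢ {τ} →
  ∃ (D₁ D₂ : Set P) (s₁ s₂ : Finset ι), ConBall 2 (D ×ˢ ({τ} : Set ℝ)) (C ×ˢ {τ}) ∧
    ConBall 2 D₁ (C ×ˢ {τ}) ∧ ConBall 2 D₂ (C ×ˢ {τ}) ∧ D₁ ∪ D₂ = S ∧ D₁ ∩ D₂ = C ×ˢ {τ} ∧
    ConSphere 2 (D ×ˢ {τ} ∪ D₁) ∧ ConSphere 2 (D ×ˢ {τ} ∪ D₂) ∧
    Tow F J a b s₁ (D ×ˢ {τ} ∪ D₁) ∧ Tow F J a b s₂ (D ×ˢ {τ} ∪ D₂) ∧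
    s₁.card < s.card ∧ s₂.card < s.card

/-- there is a horizontal disc to cut along, or the sphere is the boundary of a prism -/
def RFIND : Prop := ∀ {ι : Type} {F : Finset ℝ} {J : ι → Set E2} {a b : ι → ℝ} {s : Finset ι}
  {S : Set P}, ConSphere 2 S → Tow F J a b s S →
  (∃ (D C : Set E2) (τ : ℝ), ConBall 2 D C ∧ τ ∈ F ∧ (D ×ˢ {τ}) ∩ S = C ×ˢ {τ}) ∨
  ∃ (D C : Set E2) (c d : ℝ), ConBall 2 D C ∧ c < d ∧ C ×ˢ Icc c d ∪ D ×ˢ {c, d} ⊆ S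

end P073.Ax
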