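import Vale.Agent.P073Z.Ax.Sk
import Vale.Agent.P073Z.SCH3F
import Vale.Agent.P073Z.A3
import Vale.Agent.P073Z.MAN.Ex
import Vale.Agent.P073Z.A12.Mod

/-!
# The PL Alexander theorem: assembly
-/

open Set Metric Topology Filter

namespace P073.Ax

theorem Bnd.image {E F : Type} [NormedAddCommGroup E] [NormedSpace ℝ E] [NormedAddCommGroup F]
    [NormedSpace ℝ F] {S : Set E} (h : Bnd S) (Φ : ConHomeo (univ : Set E) (univ : Set F)) :
    Bnd (Φ.toFun '' S) := by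
  obtain ⟨C, hC⟩ := h
  exact ⟨_, hC.image Φ (subset_univ _)⟩

theorem rect (hSU : SURG) (hSI : SIS) (hC : RCUT) (hF : RFIND) {ι : Type} {F : Finset ℝ}
    {J : ι → Set E2} {a b : ι → ℝ} (n : ℕ) : ∀ (s : Finset ι) (S : Set P), s.card ≤ n →
    ConSphere 2 S → Tow F J a b s S → Bnd S := by
  induction n using Nat.strong_induction_on with
  | _ n ih =>
  intro s S hn hS hT
  rcases hF hS hT with ⟨D, C, τ, hD, hτ, he⟩ | ⟨D, C, c, d, hD, hcd, hsub⟩
  · obtain ⟨D₁, D₂, s₁, s₂, h0, h1, h2, hU, hI, hS1, hS2, hT1, hT2, c1, c2⟩ := hC hS hT hD hτ he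
    have i1 : ∀ {D' : Set P}, ConBall 2 D' (C ×ˢ {τ}) → D' ⊆ S →
        D ×ˢ ({τ} : Set ℝ) ∩ D' = C ×ˢ {τ} := fun h hs =>
      Subset.antisymm (he ▸ inter_subset_inter_right _ hs) (subset_inter h0.1 h.1)
    rw [← hU]
    exact hSU (by simp) h0 h1 h2 (i1 h1 (hU ▸ subset_union_left)) (i1 h2 (hU ▸ subset_union_right))
      hI (ih _ (c1.trans_le hn) s₁ _ le_rfl hS1 hT1) (ih _ (c2.trans_le hn) s₂ _ le_rfl hS2 hT2)
  · have hB := prod_thm hD hcd
    rw [← (hSI hB.conSphere).2.2 hS hsub]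
    exact ⟨_, hB⟩

theorem sph_image {E F : Type} [NormedAddCommGroup E] [NormedSpace ℝ E] [NormedAddCommGroup F]
    [NormedSpace ℝ F] {S : Set E} (h : ConSphere 2 S) (Φ : ConHomeo (univ : Set E) (univ : Set F)) :
    ConSphere 2 (Φ.toFun '' S) := by
  obtain ⟨φ⟩ := h
  exact ⟨(Φ.restr φ.conicalSet_left (subset_univ _)).symm.trans φ⟩

theorem preimage_eq {E F : Type} [NormedAddCommGroup E] [NormedSpace ℝ E] [NormedAddCommGroup F]
    [NormedSpace ℝ F] (S : Set F) (Φ : ConHomeo (univ : Set E) (univ : Set F)) :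
    Φ.toFun ⁻¹' S = Φ.symm.toFun '' S := by
  ext x
  constructor
  · exact fun hx => ⟨_, hx, Φ.left_inv (mem_univ x)⟩
  · rintro ⟨y, hy, rfl⟩
    rwa [mem_preimage, ConHomeo.symm_toFun, Φ.right_inv (mem_univ y)]

theorem image_symm {E F : Type} [NormedAddCommGroup E] [NormedSpace ℝ E] [NormedAddCommGroup F]
    [NormedSpace ℝ F] (S : Set E) (Φ : ConHomeo (univ : Set E) (univ : Set F)) :
    Φ.symm.toFun '' (Φ.toFun '' S) = S := by
  rw [image_image]
  exact (image_congr (g := id) (fun x _ => Φ.left_inv (mem_univ x))).trans (image_id S)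

theorem alex_of (hSU : SURG) (hSW : SWAP) (hSI : SIS) (hST : STRAT) (hPL : PLANES) (hB : BOOK)
    (hV : VGLOB) (hT : TOWER) (hC : RCUT) (hF : RFIND) : ALEX := by
  intro S hS
  obtain ⟨L, V, Dir, Lam, hst, hd⟩ := hST hS
  have hS1 : ConSphere 2 (L '' S) := sph_image hS (A12.ofCLE L)
  have hc1 := (hSI (S' := S) hS).2.1
  have hc2 : IsCompact (L '' S) := hc1.image L.continuous
  have hl : LocCone (L '' S) := by
    obtain ⟨φ⟩ := hS1
    exact LocCone.of_conHomeo (isCompact_sphere _ _) (locCone_sphere_pi _) φ.symm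
  obtain ⟨N, hN1, hN2, hN3⟩ := hPL hc2 hl hst hd
  obtain ⟨S', hS', hsub, himp⟩ := hSW V N (by simp) hS1 hN1 hN2
  have hc' := (hSI (S' := S') hS').2.1
  obtain ⟨Ψ, F, hF'⟩ := hV hc' fun σ y => by
    obtain ⟨u, Λ, h1, h2⟩ := hN3 σ y
    exact hB hc'.isClosed hS'.plMan ⟨u, Λ, h1, h2.mono fun z hz hzS => hz (hsub hzS)⟩
  have hS2 : ConSphere 2 (Ψ.toFun ⁻¹' S') := by
    rw [preimage_eq]; exact sph_image hS' _
  obtain ⟨ι, J, a, b, s, hTow⟩ := hT hS2 hF'
  have b1 := (rect hSU hSI hC hF _ s _ le_rfl hS2 hTow).image Ψ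
  rw [preimage_eq, ← Ψ.symm_symm, ConHomeo.symm_symm, show Ψ.toFun = Ψ.symm.symm.toFun from rfl,
    image_symm] at b1
  have b2 := (himp b1).image (A12.ofCLE L).symm
  rw [show (L : E3 → P) = (A12.ofCLE L).toFun from rfl, image_symm] at b2
  obtain ⟨C, hC'⟩ := b2
  rw [jb.2 hC', union_diff_cancel hC'.1]
  exact hC'

end P073.Ax
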